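import Vale.Agent.P248.Defs

/-!
P248: statements about affine coordinates.
-/

namespace Vale.Agent.P248.H917

/-- The set `K` in the affine coordinates with origin `o` and basis `b`. -/
def coords {n : ℕ} (o : EuclideanSpace ℝ (Fin n))
    (b : Module.Basis (Fin n) ℝ (EuclideanSpace ℝ (Fin n))) (K : Set (EuclideanSpace ℝ (Fin n))) :
    Set (Fin n → ℝ) := {u | o + ∑ i, u i • b i ∈ K}

/-- `K ⊆ ℝⁿ` is invariant under the rotations of the coordinates `xᵢ`, `i ∈ T`, that is, under the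
orthogonal maps which fix the coordinates `xᵢ`, `i ∉ T`. -/
def RotIn {n : ℕ} (T : Finset (Fin n)) (K : Set (Fin n → ℝ)) : Prop :=
  ∀ x ∈ K, ∀ y : Fin n → ℝ,
    (∀ i, i ∉ T → y i = x i) → ∑ i ∈ T, y i ^ 2 = ∑ i ∈ T, x i ^ 2 → y ∈ K

/-- The volume `π^(p/2) / Γ(p/2 + 1)` of the Euclidean unit ball of `ℝᵖ`. -/
noncomputable def ballVol (p : ℕ) : ℝ := Real.sqrt Real.pi ^ p / Real.Gamma (p / 2 + 1)

/-- The value `(p + 1)^(p + 1) / (p!)²` of the volume product at the simplex of dimension `p`. -/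
noncomputable def simplexVal (p : ℕ) : ℝ := ((p : ℝ) + 1) ^ (p + 1) / (p.factorial : ℝ) ^ 2

/-- A convex body in coordinates. -/
def Body {n : ℕ} (K : Set (Fin n → ℝ)) : Prop :=
  IsCompact K ∧ Convex ℝ K ∧ (interior K).Nonempty

/-- The polar body `{y : ⟨x, y⟩ ≤ 1 for all x ∈ U}` in coordinates. -/
def polar {p : ℕ} (U : Set (Fin p → ℝ)) : Set (Fin p → ℝ) := {y | ∀ x ∈ U, ∑ i, x i * y i ≤ 1}

/-- Every nonempty fibre `{x : (y, x) ∈ K}` of `K ⊆ ℝ^q × ℝ^p` is a homothet `r U`, `r ≥ 0`. -/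
def Fibred {q p : ℕ} (U : Set (Fin p → ℝ)) (K : Set (Fin (q + p) → ℝ)) : Prop :=
  ∀ y : Fin q → ℝ, (∀ x, Fin.append y x ∉ K) ∨
    ∃ r : ℝ, 0 ≤ r ∧ ∀ x, Fin.append y x ∈ K ↔ ∃ u ∈ U, x = fun i => r * u i

end Vale.Agent.P248.H917
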