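import Vale.Agent.P248.H917.Ex
import Vale.Agent.P248.H917.Defs

/-!
P248: bodies with homothetic fibres, and the passage to the volume product.
-/

open MeasureTheory Set Topology Matrix
open scoped Pointwise

namespace Vale.Agent.P248.H917

open Vale.Agent.P254.US (IsG ball isG_gauge)
open Vale.Agent.P254.H242 (yp xp sp fb HG JJ rho HH)

variable {n q p : ℕ}

theorem le_zero_iff {g : (Fin p → ℝ) → ℝ} (hg : IsG g) (x : Fin p → ℝ) : g x ≤ 0 ↔ x = 0 := by
  constructor
  · intro h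
    obtain ⟨c, hc, h2⟩ := hg.coer
    have h3 := (h2 x).trans h
    have h4 : ‖x‖ = 0 := le_antisymm (by nlinarith [norm_nonneg x]) (norm_nonneg _)
    exact norm_eq_zero.1 h4
  · rintro rfl
    have := hg.smul 0 le_rfl 0
    simp only [smul_zero, zero_mul] at this
    exact this.le

/-- the fibres over the first group of coordinates are homothetic to `U` -/
def Fbr (e : Fin n ≃ Fin q ⊕ Fin p) (U : Set (Fin p → ℝ)) (K : Set (Fin n → ℝ)) : Prop :=
  ∀ y : Fin q → ℝ, {x | sp e (y, x) ∈ K} = ∅ ∨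
    ∃ r : ℝ, 0 ≤ r ∧ {x | sp e (y, x) ∈ K} = {x | gauge U x ≤ r}

theorem exists_u0 (hp : 1 ≤ p) {g : (Fin p → ℝ) → ℝ} (hg : IsG g) : ∃ u, g u = 1 ∧ u ≠ 0 := by
  have h1 : (Pi.single ⟨0, hp⟩ 1 : Fin p → ℝ) ≠ 0 := by
    intro h
    have := congrFun h ⟨0, hp⟩
    simp at this
  have h2 : 0 < g (Pi.single ⟨0, hp⟩ 1) := by
    by_contra h
    exact h1 ((le_zero_iff hg _).1 (not_lt.1 h))
  refine ⟨(g (Pi.single ⟨0, hp⟩ 1))⁻¹ • Pi.single ⟨0, hp⟩ 1, ?_, ?_⟩
  · rw [hg.smul _ (inv_nonneg.2 h2.le), inv_mul_cancel₀ h2.ne']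
  · exact smul_ne_zero (inv_ne_zero h2.ne') h1

theorem mem_HH {e : Fin n ≃ Fin q ⊕ Fin p} {U : Set (Fin p → ℝ)} {K : Set (Fin n → ℝ)}
    (hg : IsG (gauge U)) (hF : Fbr e U K) {u : Fin p → ℝ} (hu : gauge U u = 1) {y : Fin q → ℝ}
    {x : Fin p → ℝ} : (y, gauge U x) ∈ HH e K u ↔ sp e (y, x) ∈ K := by
  have h0 : 0 ≤ gauge U x := gauge_nonneg x
  have h1 : gauge U (gauge U x • u) = gauge U x := by
    rw [hg.smul _ h0, hu, mul_one]
  rcases hF y with h | ⟨r, hr, h⟩
  · have h2 : ∀ x', sp e (y, x') ∉ K := fun x' hx' => by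
      have : x' ∈ {x | sp e (y, x) ∈ K} := hx'
      rw [h] at this
      exact this
    exact ⟨fun h3 => absurd h3.2 (h2 _), fun h3 => absurd h3 (h2 _)⟩
  · have h2 : ∀ x', sp e (y, x') ∈ K ↔ gauge U x' ≤ r := fun x' => by
      have : x' ∈ {x | sp e (y, x) ∈ K} ↔ x' ∈ {x | gauge U x ≤ r} := by rw [h]
      exact this
    rw [h2]
    constructor
    · rintro ⟨-, h3⟩
      have h4 := (h2 _).1 h3
      rwa [h1] at h4
    · intro h3
      exact ⟨h0, (h2 _).2 (by rw [h1]; exact h3)⟩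

theorem hg_HH_fbr {e : Fin n ≃ Fin q ⊕ Fin p} {U : Set (Fin p → ℝ)} {K : Set (Fin n → ℝ)}
    (hK : Bd K) (hg : IsG (gauge U)) (hF : Fbr e U K) {u : Fin p → ℝ}
    (hu : gauge U u = 1) (hu0 : u ≠ 0) : HG (HH e K u) := by
  refine ⟨?_, ?_, fun y r h => h.1, ?_⟩
  · intro w hw w' hw' a b ha hb hab
    refine ⟨?_, ?_⟩
    · show 0 ≤ a * w.2 + b * w'.2
      have := mul_nonneg ha hw.1
      have := mul_nonneg hb hw'.1
      linarith
    · have h3 := hK.1 hw.2 hw'.2 ha hb hab
      rw [← Vale.Agent.P254.H242.sp_lin] at h3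
      convert h3 using 2
      refine Prod.ext rfl ?_
      funext j
      show (a * w.2 + b * w'.2) * u j = a * (w.2 * u j) + b * (w'.2 * u j)
      ring
  · refine Metric.isCompact_of_isClosed_isBounded ?_ ?_
    · refine (isClosed_le continuous_const continuous_snd).inter (hK.2.1.isClosed.preimage ?_)
      exact (Vale.Agent.P254.H242.cont_sp e).comp (by fun_prop)
    · obtain ⟨R, hR2⟩ := hK.2.1.isBounded.subset_closedBall (0 : Fin n → ℝ)
      have hun : 0 < ‖u‖ := norm_pos_iff.2 hu0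
      refine (Metric.isBounded_closedBall (x := (0 : (Fin q → ℝ) × ℝ))
        (r := max R (R / ‖u‖))).subset fun w hw => ?_
      have h3 := hR2 hw.2
      rw [mem_closedBall_zero_iff] at h3 ⊢
      have h4 := fun i => (norm_le_pi_norm (sp e (w.1, w.2 • u)) i).trans h3
      have hR0 : 0 ≤ R := (norm_nonneg _).trans h3
      refine (Prod.norm_def w).le.trans (max_le ?_ ?_)
      · refine ((pi_norm_le_iff_of_nonneg hR0).2 fun j => ?_).trans (le_max_left _ _)
        have := h4 (e.symm (Sum.inl j))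
        rwa [Vale.Agent.P254.H242.sp_inl] at this
      · refine le_trans ?_ (le_max_right _ _)
        rw [le_div_iff₀ hun, ← norm_smul]
        refine (pi_norm_le_iff_of_nonneg hR0).2 fun j => ?_
        have := h4 (e.symm (Sum.inr j))
        rwa [Vale.Agent.P254.H242.sp_inr] at this
  · rintro y r s ⟨hr, hy⟩ hs hsr
    refine ⟨hs, ?_⟩
    change 0 ≤ r at hr
    change sp e (y, r • u) ∈ K at hy
    show sp e (y, s • u) ∈ K
    rcases hF y with h | ⟨r', hr', h⟩
    · have : r • u ∈ {x | sp e (y, x) ∈ K} := hy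
      rw [h] at this
      exact absurd this (notMem_empty _)
    · have h2 : ∀ x', sp e (y, x') ∈ K ↔ gauge U x' ≤ r' := fun x' => by
        have : x' ∈ {x | sp e (y, x) ∈ K} ↔ x' ∈ {x | gauge U x ≤ r'} := by rw [h]
        exact this
      rw [h2, hg.smul _ hr, hu, mul_one] at hy
      rw [h2, hg.smul _ hs, hu, mul_one]
      exact hsr.trans hy

/-- **bodies with homothetic symmetric fibres**, at a point -/
theorem fbr_at (e : Fin n ≃ Fin q ⊕ Fin p) (hp : 1 ≤ p) {U : Set (Fin p → ℝ)} (hU : Bd U)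
    (h0 : (0 : Fin p → ℝ) ∈ interior U) (hsym : ∀ x ∈ U, -x ∈ U) {K : Set (Fin n → ℝ)} (hK : Bd K)
    (hF : Fbr e U K) {z : Fin n → ℝ} (hz : z ∈ interior K) :
    vp U 0 * (Real.exp (-(7 / 20 * ((n : ℝ) + 1))) * cn n) ≤ cn p * vp K z := by
  obtain ⟨hg, hb⟩ := isG_gauge hU h0
  obtain ⟨u, hu, hu0⟩ := exists_u0 hp hg
  have hH := hg_HH_fbr hK hg hF hu hu0
  have hKe : fb e (HH e K u) (gauge U) = K := by
    ext x
    show (yp e x, gauge U (xp e x)) ∈ HH e K u ↔ x ∈ K
    rw [mem_HH hg hF hu, Vale.Agent.P254.H242.sp_yx]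
  obtain ⟨W, hW, hW0, hWv⟩ := exists_simplex p
  rw [← hKe] at hz
  obtain ⟨hK', z', hz', hle⟩ := exchange e hH hp hU h0 hsym hW hW0 hz
  have h1 := near_sharp_at hK' hz'
  have h2 := mul_le_mul_of_nonneg_left h1 (vp_nonneg U 0)
  rw [hKe] at hle
  exact (h2.trans hle).trans (mul_le_mul_of_nonneg_right hWv (vp_nonneg K z))

/-! ### the statement level -/

theorem body_iff {K : Set (Fin n → ℝ)} : Body K ↔ Bd K := by
  unfold Body Bd Vale.Agent.P254.IsConvexBody
  tauto

theorem coords_eq (o : EuclideanSpace ℝ (Fin n))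
    (b : Module.Basis (Fin n) ℝ (EuclideanSpace ℝ (Fin n))) (K : Set (EuclideanSpace ℝ (Fin n))) :
    coords o b K = frame o b ⁻¹' K := by
  ext u
  unfold coords frame
  rw [mem_preimage, Module.Basis.equivFun_symm_apply]
  rfl

theorem coords_body (o : EuclideanSpace ℝ (Fin n))
    (b : Module.Basis (Fin n) ℝ (EuclideanSpace ℝ (Fin n))) {K : Set (EuclideanSpace ℝ (Fin n))}
    (hK : IsConvexBody K) : Bd (coords o b K) := by
  obtain ⟨h, hh⟩ := frame_homeo o b
  rw [coords_eq]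
  refine ⟨?_, ?_, ?_⟩
  · intro u hu v hv s t hs ht hst
    have h1 := hK.2.1 hu hv hs ht hst
    have h2 : frame o b (s • u + t • v) = s • frame o b u + t • frame o b v := by
      unfold frame
      rw [map_add, map_smul, map_smul, smul_add, smul_add]
      have : o = s • o + t • o := by rw [← add_smul, hst, one_smul]
      nth_rewrite 1 [this]
      abel
    show frame o b (s • u + t • v) ∈ K
    rw [h2]
    exact h1
  · have : frame o b ⁻¹' K = h ⁻¹' K := by
      ext u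
      rw [mem_preimage, mem_preimage, hh]
    rw [this]
    exact h.isCompact_preimage.2 hK.1
  · rw [frame_preimage_interior]
    obtain ⟨x, hx⟩ := hK.2.2
    obtain ⟨u, rfl⟩ := h.surjective x
    exact ⟨u, by rw [mem_preimage, ← hh]; exact hx⟩

/-- from the inequality at every point to the volume product -/
theorem vP_ge (o : EuclideanSpace ℝ (Fin n))
    (b : Module.Basis (Fin n) ℝ (EuclideanSpace ℝ (Fin n))) {K : Set (EuclideanSpace ℝ (Fin n))}
    {c : ℝ} (h : ∀ z ∈ interior (coords o b K), c ≤ vp (coords o b K) z) :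
    ENNReal.ofReal c ≤ volumeProduct K := by
  rw [volumeProduct_frame o b, ← coords_eq]
  refine le_iInf₂ fun z hz => ?_
  refine (ENNReal.ofReal_le_ofReal (h z hz)).trans ?_
  unfold vp
  rw [ENNReal.ofReal_mul ENNReal.toReal_nonneg]
  exact mul_le_mul' ENNReal.ofReal_toReal_le ENNReal.ofReal_toReal_le

end Vale.Agent.P248.H917
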