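import Vale.Agent.P248.H917.FExch

/-!
P248: Q1's inequality for generated symmetric bodies.
-/

open MeasureTheory Set
open scoped ENNReal

namespace Vale.Agent.P248.H917

open Vale.Agent.P254.US (IsG ball isG_gauge)
open Vale.Agent.P248.H432

variable {n q p : ℕ}

theorem zero_interior {K : Set (E n)} (hK : IsConvexBody K) (hneg : ∀ x ∈ K, -x ∈ K) :
    (0 : E n) ∈ interior K := by
  rw [← centroid_symm hneg]
  exact centroid_mem hK

theorem preimage_cube : frame 0 (sb p) ⁻¹' cube p = ball (fun x : Fin p → ℝ => ‖x‖) := by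
  ext x
  rw [mem_frame_sb]
  show (∀ i, |x i| ≤ 1) ↔ ‖x‖ ≤ 1
  rw [pi_norm_le_iff_of_nonneg zero_le_one]
  exact Iff.rfl

theorem cube_body : IsConvexBody (cube p) := by
  refine body_of_CB (p := 0) (b := sb p) ?_
  rw [preimage_cube]
  exact (cb_ball Q.isG_norm).1

theorem cube_neg : ∀ x ∈ cube p, -x ∈ cube p := by
  intro x hx i
  show |-(x i)| ≤ 1
  rw [abs_neg]
  exact hx i

theorem cube_vP (hp : 1 ≤ p) :
    volumeProduct (cube p) ≤ ENNReal.ofReal (4 ^ p / (p.factorial : ℝ)) := by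
  rw [vP_symm cube_body cube_neg, preimage_cube]
  exact ENNReal.ofReal_le_ofReal (vp_cube hp)

/-- the exchange from the cube -/
theorem exch_ge (hp : 1 ≤ p) {U : Set (E p)} {K K' : Set (E n)} (hU : IsConvexBody U)
    (hs : ∀ x ∈ U, -x ∈ U) (hv : ENNReal.ofReal (4 ^ p / (p.factorial : ℝ)) ≤ volumeProduct U)
    (hK : IsConvexBody K) (hX : IsExchange q U (cube p) K K') :
    volumeProduct K' ≤ volumeProduct K := by
  obtain ⟨hK', h⟩ := exch_eq hp hU hs cube_body cube_neg hK hX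
  have h1 : ENNReal.ofReal (4 ^ p / (p.factorial : ℝ)) * volumeProduct K' ≤
      ENNReal.ofReal (4 ^ p / (p.factorial : ℝ)) * volumeProduct K := by
    calc _ ≤ volumeProduct U * volumeProduct K' := mul_le_mul' hv le_rfl
      _ = volumeProduct K' * volumeProduct U := mul_comm _ _
      _ = volumeProduct K * volumeProduct (cube p) := h.symm
      _ ≤ volumeProduct K * ENNReal.ofReal (4 ^ p / (p.factorial : ℝ)) :=
          mul_le_mul' le_rfl (cube_vP hp)
      _ = _ := mul_comm _ _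
  refine (ENNReal.mul_le_mul_iff_right ?_ ENNReal.ofReal_ne_top).1 h1
  rw [Ne, ENNReal.ofReal_eq_zero, not_le]
  positivity

theorem uncond_q1 {K : Set (E n)} (hK : IsConvexBody K) (hu : IsUnconditional K) :
    (∀ x ∈ K, -x ∈ K) ∧ ENNReal.ofReal (4 ^ n / (n.factorial : ℝ)) ≤ volumeProduct K := by
  obtain ⟨b, hb⟩ := hu
  have hneg : ∀ x ∈ K, -x ∈ K := fun x hx => hb x hx (-x) fun i => by
    rw [map_neg, Finsupp.neg_apply, abs_neg]
  refine ⟨hneg, ?_⟩
  have hneg' := neg_frame hneg b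
  have hSB := Q.sb_of_symm (CB_frame hK 0 b) hneg'
  have hfr : ∀ (u : Fin n → ℝ) (j : Fin n), b.repr (frame 0 b u) j = u j := fun u j => by
    have := frame_repr 0 b u j
    rwa [sub_zero] at this
  have hU : Q.Unc (frame 0 b ⁻¹' K) := by
    intro i x hx
    refine hb _ hx _ fun j => ?_
    rw [hfr, hfr]
    by_cases h : j = i
    · subst h
      rw [Function.update_self, abs_neg]
    · rw [Function.update_of_ne h]
  have h1 := Q.pUnc Q.main_top n _ hSB hU
  rw [volumeProduct_eq_vp K 0 b, Q.vp_symm hSB hneg']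
  exact h1

theorem prod_q1 {m n N : ℕ} {K : Set (E m)} {L : Set (E n)} {M : Set (E N)}
    (hK : IsConvexBody K) (hL : IsConvexBody L) (h : ProductOf K L M)
    (h1 : ENNReal.ofReal (4 ^ m / (m.factorial : ℝ)) ≤ volumeProduct K)
    (h2 : ENNReal.ofReal (4 ^ n / (n.factorial : ℝ)) ≤ volumeProduct L) :
    ENNReal.ofReal (4 ^ N / (N.factorial : ℝ)) ≤ volumeProduct M := by
  have hN : m + n = N := h.1
  subst hN
  rw [h.isProduct.volumeProduct_eq hK hL]
  refine le_trans (le_of_eq ?_) (mul_le_mul' le_rfl (mul_le_mul' h1 h2))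
  rw [← ENNReal.ofReal_mul (by positivity), ← ENNReal.ofReal_mul (by positivity)]
  congr 1
  have hm : (m.factorial : ℝ) ≠ 0 := by positivity
  have hn : (n.factorial : ℝ) ≠ 0 := by positivity
  rw [pow_add]
  field_simp

/-- **Q1's inequality for generated symmetric bodies** -/
theorem genSymm {n : ℕ} {K : Set (E n)} (h : GenSymm n K) :
    1 ≤ n ∧ IsConvexBody K ∧ (∀ x ∈ K, -x ∈ K) ∧
      ENNReal.ofReal (4 ^ n / (n.factorial : ℝ)) ≤ volumeProduct K := by
  induction h with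
  | uncond hn hK hu => exact ⟨hn, hK, uncond_q1 hK hu⟩
  | @cubeSym n K hK hneg hc =>
    refine ⟨?_, hK, hneg, Q.cube_top hK hc⟩
    obtain ⟨-, -, k, -⟩ := hc
    exact Nat.one_le_iff_ne_zero.2 fun h => by
      subst h
      exact k.elim0
  | @fibre q p n U K hq _ hK hneg hF ih =>
    obtain ⟨hp, hU, hs, hv⟩ := ih
    refine ⟨?_, hK, hneg, cancel_q1 (law_q1 hq hp hU hs hK hneg hF) hv⟩
    have := hF.1
    omega
  | @exch q p n U K K' _ _ hK hneg hX ihU ihK' =>
    obtain ⟨hp, hU, hs, hv⟩ := ihU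
    exact ⟨ihK'.1, hK, hneg, ihK'.2.2.2.trans (exch_ge hp hU hs hv hK hX)⟩
  | @prod m n N K L M _ _ hneg hM ihK ihL =>
    refine ⟨?_, hM.isProduct.body ihK.2.1 ihL.2.1, hneg,
      prod_q1 ihK.2.1 ihL.2.1 hM ihK.2.2.2 ihL.2.2.2⟩
    have := hM.1
    have := ihK.1
    omega
  | @polar n K _ ih =>
    obtain ⟨hn, hK, hs, hv⟩ := ih
    refine ⟨hn, polarAt_body hK (zero_interior hK hs), fun y hy x hx => ?_, hv.trans ?_⟩
    · have h1 := hy (-x) (hs x hx)
      simp only [sub_zero, inner_neg_right] at h1 ⊢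
      rw [inner_neg_left]
      exact h1
    · have h1 := volumeProduct_le_polar hK
      rwa [centroid_symm hs] at h1

end Vale.Agent.P248.H917
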