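import Vale.Agent.P248.H917.San

/-!
P248: the exchange of the fibres; rotations in several groups of coordinates.
-/

open MeasureTheory Set Topology Matrix
open scoped Pointwise

namespace Vale.Agent.P248.H917

open Vale.Agent.P254.US (IsG ball isG_gauge)
open Vale.Agent.P254.H242 (yp xp sp fb HG JJ rho NN isG_NN kap kap_pos RR RInv HH)

variable {n q p : ℕ}

/-- the constant of the simplex -/
noncomputable def cn (n : ℕ) : ℝ := ((n : ℝ) + 1) ^ (n + 1) / (n.factorial : ℝ) ^ 2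

theorem cn_pos (n : ℕ) : 0 < cn n := by
  unfold cn
  positivity

theorem vp_nonneg (K : Set (Fin n → ℝ)) (z : Fin n → ℝ) : 0 ≤ vp K z :=
  mul_nonneg ENNReal.toReal_nonneg ENNReal.toReal_nonneg

/-- **exchange** of the symmetric fibre `W` by the fibre `W'` -/
theorem exchange (e : Fin n ≃ Fin q ⊕ Fin p) {H : Set ((Fin q → ℝ) × ℝ)} (hH : HG H)
    (hp : 1 ≤ p) {W W' : Set (Fin p → ℝ)} (hW : Bd W) (h0 : (0 : Fin p → ℝ) ∈ interior W)
    (hsym : ∀ x ∈ W, -x ∈ W) (hW' : Bd W') (h0' : (0 : Fin p → ℝ) ∈ interior W')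
    {z : Fin n → ℝ} (hz : z ∈ interior (fb e H (gauge W))) :
    Bd (fb e H (gauge W')) ∧ ∃ z' ∈ interior (fb e H (gauge W')),
      vp W 0 * vp (fb e H (gauge W')) z' ≤ vp W' 0 * vp (fb e H (gauge W)) z := by
  obtain ⟨hg, hb⟩ := isG_gauge hW h0
  obtain ⟨hg', hb'⟩ := isG_gauge hW' h0'
  have hK : Bd (fb e H (gauge W)) :=
    ⟨Vale.Agent.P254.H242.convex_fb e hH hg, Vale.Agent.P254.H242.compact_fb e hH hg, ⟨z, hz⟩⟩
  have hinv : ∀ x ∈ fb e H (gauge W), sp e (yp e x, -xp e x) ∈ fb e H (gauge W) := by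
    intro x hx
    show (yp e (sp e (yp e x, -xp e x)), gauge W (xp e (sp e (yp e x, -xp e x)))) ∈ H
    rw [Vale.Agent.P254.H242.yp_sp, Vale.Agent.P254.H242.xp_sp, gauge_neg hsym]
    exact hx
  obtain ⟨z1, hz1, hz10, hv⟩ := san_block e hK hinv hz
  have hn := nb_of_int e hg hp hz1 hz10
  have hz2 := int_of_nb e hg' hz10 hn
  refine ⟨⟨Vale.Agent.P254.H242.convex_fb e hH hg', Vale.Agent.P254.H242.compact_fb e hH hg',
    ⟨z1, hz2⟩⟩, z1, hz2, ?_⟩
  have h1 := vp_fb e hH hp hW h0 hz10 hn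
  have h2 := vp_fb e hH hp hW' h0' hz10 hn
  have h3 := mul_le_mul_of_nonneg_left hv (vp_nonneg W' 0)
  rw [h1] at h3
  rw [h2]
  linarith

/-! ### the ball -/

theorem gauge_ball {g : (Fin p → ℝ) → ℝ} (hg : IsG g) : gauge (ball g) = g := by
  funext x
  have hmem : ∀ r : ℝ, 0 < r → (x ∈ r • ball g ↔ g x ≤ r) := by
    intro r hr
    rw [← Vale.Agent.P254.US.IsG.smul_ball hg hr]
    rfl
  refine le_antisymm ?_ ?_
  · refine le_of_forall_pos_le_add fun ε hε => ?_
    have h1 : 0 < g x + ε := by linarith [hg.nonneg x]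
    exact gauge_le_of_mem h1.le ((hmem _ h1).2 (by linarith))
  · refine le_csInf ?_ ?_
    · exact ⟨g x + 1, by linarith [hg.nonneg x], (hmem _ (by linarith [hg.nonneg x])).2
        (by linarith)⟩
    · rintro r ⟨hr, hx⟩
      exact (hmem r hr).1 hx

theorem ball_body {g : (Fin p → ℝ) → ℝ} (hg : IsG g) :
    Bd (ball g) ∧ (0 : Fin p → ℝ) ∈ interior (ball g) := by
  have hg0 : g 0 = 0 := by
    have := hg.smul 0 le_rfl 0
    simpa using this
  have h0 : (0 : Fin p → ℝ) ∈ interior (ball g) := by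
    refine interior_maximal (t := {x | g x < 1}) (fun x hx => (le_of_lt hx : g x ≤ 1))
      (isOpen_lt hg.cont continuous_const) ?_
    show g 0 < 1
    rw [hg0]
    exact one_pos
  refine ⟨⟨?_, Vale.Agent.P254.US.IsG.compact_le hg 1, ⟨0, h0⟩⟩, h0⟩
  intro x hx y hy a b ha hb hab
  show g (a • x + b • y) ≤ 1
  refine (hg.add _ _).trans ?_
  rw [hg.smul a ha, hg.smul b hb]
  have h1 : g x ≤ 1 := hx
  have h2 : g y ≤ 1 := hy
  nlinarith

theorem P0_ball : P0 (ball (NN : (Fin p → ℝ) → ℝ)) = ball NN := by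
  have cs : ∀ x y : Fin p → ℝ, ∑ i, x i * y i ≤ NN x * NN y := by
    intro x y
    have h1 := Finset.sum_mul_sq_le_sq_mul_sq Finset.univ x y
    rw [← Vale.Agent.P254.H242.NN_sq x, ← Vale.Agent.P254.H242.NN_sq y, ← mul_pow] at h1
    exact le_of_abs_le (abs_le_of_sq_le_sq h1 (mul_nonneg (isG_NN.nonneg x) (isG_NN.nonneg y)))
  ext y
  rw [mem_P0]
  constructor
  · intro h
    show NN y ≤ 1
    by_contra h1
    push Not at h1
    have h2 : (NN y)⁻¹ • y ∈ ball (NN : (Fin p → ℝ) → ℝ) := by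
      show NN _ ≤ 1
      rw [isG_NN.smul _ (by positivity), inv_mul_cancel₀ (by linarith)]
    have h3 := h _ h2
    have h4 : ∑ i, ((NN y)⁻¹ • y) i * y i = NN y := by
      have : ∑ i, ((NN y)⁻¹ • y) i * y i = (NN y)⁻¹ * ∑ i, y i ^ 2 := by
        rw [Finset.mul_sum]
        refine Finset.sum_congr rfl fun i _ => ?_
        simp only [Pi.smul_apply, smul_eq_mul]
        ring
      rw [this, ← Vale.Agent.P254.H242.NN_sq, pow_two, ← mul_assoc, inv_mul_cancel₀ (by linarith),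
        one_mul]
    rw [h4] at h3
    linarith
  · intro h x hx
    have h1 : NN x ≤ 1 := hx
    have h2 : NN y ≤ 1 := h
    have := cs x y
    nlinarith [isG_NN.nonneg x, isG_NN.nonneg y]

theorem vp_ball (hp : 1 ≤ p) : vp (ball (NN : (Fin p → ℝ) → ℝ)) 0 = kap p ^ 2 := by
  unfold vp
  have : polarP (ball (NN : (Fin p → ℝ) → ℝ)) 0 = ball NN := P0_ball
  rw [this, Vale.Agent.P254.H242.vol_ball hp]
  ring

/-! ### the simplex -/

theorem exists_simplex (p : ℕ) : ∃ W : Set (Fin p → ℝ), Bd W ∧ (0 : Fin p → ℝ) ∈ interior W ∧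
    vp W 0 ≤ cn p := by
  have hb : Bd (stdS (Fin p)) := ⟨stdS_convex' p, stdS_isCompact' p, ⟨_, cen_mem_interior p⟩⟩
  set h : (Fin p → ℝ) ≃ₜ (Fin p → ℝ) := Homeomorph.addRight (-cen p) with hh
  have himg : ∀ x, h x = x - cen p := fun x => by simp [hh, sub_eq_add_neg]
  set W : Set (Fin p → ℝ) := h '' stdS (Fin p) with hW
  have h0 : (0 : Fin p → ℝ) ∈ interior W := by
    rw [hW, ← h.image_interior]
    exact ⟨cen p, cen_mem_interior p, by rw [himg, sub_self]⟩
  have hv : volume W = volume (stdS (Fin p)) := by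
    have : W = (fun x => x + -cen p) '' stdS (Fin p) := rfl
    rw [this, Set.image_add_right, measure_preimage_add_right]
  have hp : polarP W 0 = polarP (stdS (Fin p)) (cen p) := by
    ext y
    constructor
    · intro hy x hx
      have h1 := hy (h x) ⟨x, hx, rfl⟩
      simpa [himg] using h1
    · rintro hy _ ⟨x, hx, rfl⟩
      have h1 := hy x hx
      simpa [himg] using h1
  refine ⟨W, ⟨?_, hb.2.1.image h.continuous, ⟨0, h0⟩⟩, h0, ?_⟩
  · have : W = (fun x => x + -cen p) '' stdS (Fin p) := rfl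
    rw [this]
    rintro _ ⟨x, hx, rfl⟩ _ ⟨y, hy, rfl⟩ a b ha hb' hab
    refine ⟨a • x + b • y, hb.1 hx hy ha hb' hab, ?_⟩
    funext i
    simp only [Pi.add_apply, Pi.smul_apply, Pi.neg_apply, smul_eq_mul]
    linear_combination (cen p i) * hab
  · unfold vp
    rw [hp, hv, volume_stdS_eq, ENNReal.toReal_ofReal (by positivity), Fintype.card_fin]
    have h1 := ENNReal.toReal_mono ENNReal.ofReal_ne_top (volume_polarP_stdS_le p)
    rw [ENNReal.toReal_ofReal (by positivity)] at h1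
    have h2 := mul_le_mul_of_nonneg_left h1 (by positivity : (0 : ℝ) ≤ 1 / (p.factorial : ℝ))
    refine h2.trans (le_of_eq ?_)
    unfold cn
    field_simp

theorem RR_eq (p : ℕ) : RR p = cn p / kap p ^ 2 := by
  unfold RR cn
  have := kap_pos p
  field_simp

/-! ### rotations -/

/-- one group of coordinates -/
theorem exchR {T : Finset (Fin n)} (hT : 1 ≤ T.card) {K : Set (Fin n → ℝ)} (hK : Bd K)
    (hR : RInv T K) {z : Fin n → ℝ} (hz : z ∈ interior K) :
    ∃ K' : Set (Fin n → ℝ), Bd K' ∧ (∃ z' ∈ interior K', vp K' z' ≤ RR T.card * vp K z) ∧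
      ∀ T' : Finset (Fin n), Disjoint T T' → RInv T' K → RInv T' K' := by
  obtain ⟨q, e, h1, h2⟩ := Vale.Agent.P254.H242.exists_split T
  have hH := Vale.Agent.P254.H242.hg_HH hK hR h1 h2 ⟨0, hT⟩
  have hKe := Vale.Agent.P254.H242.fb_HH hR h1 h2 ⟨0, hT⟩
  set u : Fin T.card → ℝ := Pi.single ⟨0, hT⟩ 1 with hu
  obtain ⟨W, hW, h0, hWv⟩ := exists_simplex T.card
  obtain ⟨hB, hB0⟩ := ball_body (isG_NN (p := T.card))
  have hgb := gauge_ball (isG_NN (p := T.card))
  have hz' : z ∈ interior (fb e (HH e K u) (gauge (ball NN))) := by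
    rw [hgb, hKe]
    exact hz
  have hsym : ∀ x ∈ ball (NN : (Fin T.card → ℝ) → ℝ), -x ∈ ball (NN : (Fin T.card → ℝ) → ℝ) := by
    intro x hx
    show NN (-x) ≤ 1
    have : NN (-x) = NN x := by
      unfold NN
      simp
    rw [this]
    exact hx
  obtain ⟨hK', z', hz'', hle⟩ := exchange e hH hT hB hB0 hsym hW h0 hz'
  refine ⟨_, hK', ⟨z', hz'', ?_⟩, ?_⟩
  · rw [hgb, hKe, vp_ball hT] at hle
    have h3 : vp W 0 * vp K z ≤ cn T.card * vp K z :=
      mul_le_mul_of_nonneg_right hWv (vp_nonneg K z)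
    rw [RR_eq]
    have h4 := kap_pos T.card
    rw [div_mul_eq_mul_div, le_div_iff₀ (by positivity), mul_comm]
    linarith
  · intro T' hd hR' z hz z' hoff hsum
    have h3 : ∀ i ∈ T', i ∉ T := fun i hi hi2 => Finset.disjoint_left.1 hd hi2 hi
    have hx : xp e z' = xp e z := by
      funext j
      exact hoff _ fun hj => h3 _ hj (h2 j)
    have h4 : ∀ (v : Fin n → ℝ) (x : Fin T.card → ℝ), ∀ i ∈ T', sp e (yp e v, x) i = v i := by
      intro v x i hi
      obtain ⟨s, rfl⟩ := e.symm.surjective i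
      rcases s with j | j
      · rw [Vale.Agent.P254.H242.sp_inl]
        rfl
      · exact absurd (h2 j) (h3 _ hi)
    refine ⟨gauge_nonneg _, ?_⟩
    show sp e (yp e z', gauge W (xp e z') • u) ∈ K
    rw [hx]
    refine hR' _ hz.2 _ (fun i hi => ?_) ?_
    · obtain ⟨s, rfl⟩ := e.symm.surjective i
      rcases s with j | j
      · rw [Vale.Agent.P254.H242.sp_inl, Vale.Agent.P254.H242.sp_inl]
        exact hoff _ hi
      · rw [Vale.Agent.P254.H242.sp_inr, Vale.Agent.P254.H242.sp_inr]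
    · have e1 : ∑ i ∈ T', sp e (yp e z', gauge W (xp e z) • u) i ^ 2 = ∑ i ∈ T', z' i ^ 2 :=
        Finset.sum_congr rfl fun i hi => by rw [h4 z' _ i hi]
      have e2 : ∑ i ∈ T', sp e (yp e z, gauge W (xp e z) • u) i ^ 2 = ∑ i ∈ T', z i ^ 2 :=
        Finset.sum_congr rfl fun i hi => by rw [h4 z _ i hi]
      rw [e1, e2]
      exact hsum

/-- several groups of coordinates -/
theorem blocksR {m : ℕ} (T : Fin m → Finset (Fin n)) (hd : ∀ i j, i ≠ j → Disjoint (T i) (T j))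
    {K : Set (Fin n → ℝ)} (hK : Bd K) (hR : ∀ i, RInv (T i) K) {z : Fin n → ℝ}
    (hz : z ∈ interior K) :
    ∃ K' : Set (Fin n → ℝ), Bd K' ∧ ∃ z' ∈ interior K', vp K' z' ≤ (∏ i, RR (T i).card) * vp K z := by
  classical
  have key : ∀ s : Finset (Fin m), ∃ K' : Set (Fin n → ℝ), Bd K' ∧
      (∃ z' ∈ interior K', vp K' z' ≤ (∏ i ∈ s, RR (T i).card) * vp K z) ∧
        ∀ j, j ∉ s → RInv (T j) K' := by
    intro s
    induction s using Finset.induction_on with
    | empty => exact ⟨K, hK, ⟨z, hz, by simp⟩, fun j _ => hR j⟩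
    | insert i s hi ih =>
      obtain ⟨K', hK', ⟨z', hz', hD⟩, hR'⟩ := ih
      rw [Finset.prod_insert hi]
      rcases Nat.eq_zero_or_pos (T i).card with h0 | h0
      · refine ⟨K', hK', ⟨z', hz', ?_⟩, fun j hj => hR' j fun hj2 =>
          hj (Finset.mem_insert_of_mem hj2)⟩
        rw [h0, Vale.Agent.P254.H242.RR_zero, one_mul]
        exact hD
      · obtain ⟨K2, hK2, ⟨z2, hz2, hD2⟩, hR2⟩ := exchR h0 hK' (hR' i hi) hz'
        refine ⟨K2, hK2, ⟨z2, hz2, ?_⟩, fun j hj => ?_⟩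
        · calc vp K2 z2 ≤ RR (T i).card * vp K' z' := hD2
            _ ≤ RR (T i).card * ((∏ i ∈ s, RR (T i).card) * vp K z) :=
                mul_le_mul_of_nonneg_left hD (Vale.Agent.P254.H242.RR_pos _).le
            _ = _ := by ring
        · have hji : i ≠ j := fun h => hj (h ▸ Finset.mem_insert_self _ _)
          exact hR2 _ (hd i j hji) (hR' j fun hj2 => hj (Finset.mem_insert_of_mem hj2))
  obtain ⟨K', h1, h2, -⟩ := key Finset.univ
  exact ⟨K', h1, h2⟩

/-- **the volume product of bodies with rotational symmetries** -/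
theorem rot_at {m : ℕ} (T : Fin m → Finset (Fin n)) (hd : ∀ i j, i ≠ j → Disjoint (T i) (T j))
    {K : Set (Fin n → ℝ)} (hK : Bd K) (hR : ∀ i, RInv (T i) K) {z : Fin n → ℝ}
    (hz : z ∈ interior K) :
    Real.exp (-(7 / 20 * ((n : ℝ) + 1))) * cn n ≤ (∏ i, RR (T i).card) * vp K z := by
  obtain ⟨K', hK', z', hz', h⟩ := blocksR T hd hK hR hz
  exact (near_sharp_at hK' hz').trans h

end Vale.Agent.P248.H917
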