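import Vale.Agent.P248.H917.FStrict

/-! P248: the general Mahler conjecture for the generated bodies. -/

set_option linter.unusedSectionVars false

open MeasureTheory Set Filter
open scoped ENNReal Topology Pointwise

namespace Vale.Agent.P248.H917

open Vale.Agent.P248.H432

/-- **The general Mahler conjecture for generated bodies**, with its equality case. -/
theorem genMahler {n : ℕ} {K : Set (E n)} (h : GenMahler n K) :
    IsConvexBody K ∧ 1 ≤ mahlerRatio K ∧ (mahlerRatio K = 1 ↔ IsSimplex K) := by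
  induction h with
  | base h => exact generated h
  | @symm n K h =>
    obtain ⟨h1, h2, h3, h4⟩ := genSymm h
    refine ⟨h2, ?_⟩
    rcases Nat.lt_or_ge n 2 with hn | hn
    · exact Q2_down Q2_three (by omega) _ h2
    · have h5 := Q.one_lt_ratio hn h4
      exact ⟨h5.le, fun h => absurd h h5.ne', fun h => absurd (ratio_simplex h) h5.ne'⟩
  | @fill q p n U K V hp hU hs hq hV hF hK hKV hv =>
    have h1 := ratio_fill hp hU hs hq hV hF hK hKV
    have h5 : 1 < mahlerRatio K := by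
      by_contra hlt
      rw [not_lt] at hlt
      refine absurd h1 (not_lt.2 ?_)
      calc mahlerRatio K * volume V ≤ 1 * volume V := mul_le_mul' hlt le_rfl
        _ = volume V := one_mul _
        _ ≤ _ := hv
    exact ⟨hK, h5.le, fun h => absurd h h5.ne', fun h => absurd (ratio_simplex h) h5.ne'⟩
  | @exch q p n U K K' hp hU hs hq _ hns hK hX ih =>
    have h1 := exch_ge hp hU hs hq hK hX
    have h2 : 1 < mahlerRatio K' :=
      lt_of_le_of_ne ih.2.1 fun h => hns (ih.2.2.1 h.symm)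
    have h5 : 1 < mahlerRatio K := h2.trans_le (ENNReal.div_le_div_right h1 _)
    exact ⟨hK, h5.le, fun h => absurd h h5.ne', fun h => absurd (ratio_simplex h) h5.ne'⟩
  | join _ _ hj ihK ihL =>
    replace hj := hj.isJoin
    exact ⟨hj.body ihK.1 ihL.1,
      hj.ratio_iff ihK.1 ihL.1 ihK.2.1 ihK.2.2 ihL.2.1 ihL.2.2⟩
  | prod _ _ hj ihK ihL =>
    replace hj := hj.isProduct
    exact ⟨hj.body ihK.1 ihL.1,
      hj.ratio_iff ihK.1 ihL.1 ihK.2.1 ihK.2.2 ihL.2.1 ihL.2.2⟩
  | polar _ ih =>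
    have h1 := ratio_le_polar ih.1
    change mahlerRatio _ ≤ mahlerRatio (centroidPolar _) at h1
    refine ⟨polarAt_body ih.1 (centroid_mem ih.1), ih.2.1.trans h1, fun h2 => ?_, ratio_simplex⟩
    rw [h2] at h1
    exact polarAt_simplex (ih.2.2.1 (le_antisymm h1 ih.2.1)) (centroid_mem ih.1)
  | @glue n K K₁ K₂ _ _ hcv hg ih₁ ih₂ =>
    obtain ⟨h1, h2, h3⟩ := hg.law hcv ih₁.1 ih₂.1
    by_cases hs : IsSimplex K₁ ∧ IsSimplex K₂
    · obtain ⟨v, hv, e⟩ := glue_few hcv hg hs.1 hs.2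
      rw [e] at h1 ⊢
      have h4 := few v hv
      exact ⟨h1, h4.1, h4.2, ratio_simplex⟩
    have h4 := mix_ratio ih₁.2.1 ih₂.2.1 (fun h => hs ⟨ih₁.2.2.1 h.1, ih₂.2.2.1 h.2⟩) h2 h3
    exact ⟨h1, h4.le, fun h => absurd h h4.ne', fun h => absurd (ratio_simplex h) h4.ne'⟩
  | fibreSum _ _ hs hg ih₁ ih₂ =>
    obtain ⟨h1, h2, h3⟩ := hg.law ih₁.1 ih₂.1
    have h4 := mix_ratio ih₁.2.1 ih₂.2.1 (fun h => hs ⟨ih₁.2.2.1 h.1, ih₂.2.2.1 h.2⟩) h2 h3
    exact ⟨h1, h4.le, fun h => absurd h h4.ne', fun h => absurd (ratio_simplex h) h4.ne'⟩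

end Vale.Agent.P248.H917
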