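import Vale.Agent.P248.H432.Q.SymDefs

/-! P248: bodies with homothetic fibres (definitions). -/

open MeasureTheory

namespace Vale.Agent.P248.H917

open Vale.Agent.P248.H432

/-- `K` is symmetric with respect to the origin. -/
def IsSym {n : ℕ} (K : Set (E n)) : Prop := ∀ x ∈ K, -x ∈ K

/-- The coordinates `(y, x) ↦ o + f y + g x` (`f`, `g` linear, onto) present `K ⊆ ℝⁿ` as a body fibred
over `ℝ^q` by homothets of `U ⊆ ℝᵖ`: every nonempty fibre `{x : o + f y + g x ∈ K}` is a homothet
`r U`, `r ≥ 0`. -/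
def IsFibration {q p n : ℕ} (o : E n) (f : E q → E n) (g : E p → E n) (U : Set (E p))
    (K : Set (E n)) : Prop :=
  IsLinearMap ℝ f ∧ IsLinearMap ℝ g ∧ (∀ z, ∃ y x, z = f y + g x) ∧
    ∀ y, {x | o + f y + g x ∈ K} = ∅ ∨
      ∃ r : ℝ, 0 ≤ r ∧ {x | o + f y + g x ∈ K} = (fun u => r • u) '' U

/-- `K ⊆ ℝⁿ` is fibred over `ℝ^q`, `q + p = n`, by homothets of `U ⊆ ℝᵖ`. -/
def FibredBy {p n : ℕ} (q : ℕ) (U : Set (E p)) (K : Set (E n)) : Prop :=
  q + p = n ∧ ∃ (o : E n) (f : E q → E n) (g : E p → E n), IsFibration o f g U K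

/-- The same, with the origin of `ℝⁿ` as the origin of the coordinates. -/
def CentrallyFibredBy {p n : ℕ} (q : ℕ) (U : Set (E p)) (K : Set (E n)) : Prop :=
  q + p = n ∧ ∃ (f : E q → E n) (g : E p → E n), IsFibration 0 f g U K

/-- `K'` arises from `K` by the exchange of the fibre `U` for the fibre `W`: in some linear
coordinates `(y, x) ↦ o + f y + g x` the fibres of `K` and `K'` over every `y ∈ ℝ^q` are both empty,
or `r U` and `r W` with the same `r ≥ 0`. -/
def IsExchange {p n : ℕ} (q : ℕ) (U W : Set (E p)) (K K' : Set (E n)) : Prop :=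
  q + p = n ∧ ∃ (o : E n) (f : E q → E n) (g : E p → E n),
    IsLinearMap ℝ f ∧ IsLinearMap ℝ g ∧ (∀ z, ∃ y x, z = f y + g x) ∧
    ∀ y, ({x | o + f y + g x ∈ K} = ∅ ∧ {x | o + f y + g x ∈ K'} = ∅) ∨
      ∃ r : ℝ, 0 ≤ r ∧ {x | o + f y + g x ∈ K} = (fun u => r • u) '' U ∧
        {x | o + f y + g x ∈ K'} = (fun w => r • w) '' W

/-- The cube `[-1, 1]ᵖ`. -/
def cube (p : ℕ) : Set (E p) := {x | ∀ i, |x i| ≤ 1}

/-- `K` is invariant under the sign changes of the coordinates of some basis. -/
def IsUnconditional {n : ℕ} (K : Set (E n)) : Prop :=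
  ∃ b : Module.Basis (Fin n) ℝ (E n), ∀ x ∈ K, ∀ y, (∀ i, |b.repr y i| = |b.repr x i|) → y ∈ K

/-- Q1's inequality in dimension `n` up to the factor `t`: every origin-symmetric convex body of
`ℝⁿ` has `P(K) ≥ t 4^n / n!`. -/
def SymmMahlerUpTo (n : ℕ) (t : ℝ) : Prop := ∀ K : Set (E n), IsConvexBody K →
  IsSym K → ENNReal.ofReal (t * (4 ^ n / (n.factorial : ℝ))) ≤ volumeProduct K

/-- Origin-symmetric bodies generated from the unconditional bodies and from the bodies
invariant (in some frame) under the signed permutations of all coordinates but two, by: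
symmetric bodies fibred over a line or a plane by homothets of a generated body; exchange of
the fibre in a generated body, from the cube to a generated body; products; polarity. -/
inductive GenSymm : ∀ n : ℕ, Set (E n) → Prop
  | uncond {n : ℕ} {K : Set (E n)} : 1 ≤ n → IsConvexBody K → IsUnconditional K → GenSymm n K
  | cubeSym {n : ℕ} {K : Set (E n)} : IsConvexBody K → IsSym K → IsCubeSym K →
      GenSymm n K
  | fibre {q p n : ℕ} {U : Set (E p)} {K : Set (E n)} : q ≤ 2 → GenSymm p U → IsConvexBody K →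
      IsSym K → CentrallyFibredBy q U K → GenSymm n K
  | exch {q p n : ℕ} {U : Set (E p)} {K K' : Set (E n)} : GenSymm p U → GenSymm n K' →
      IsConvexBody K → IsSym K → IsExchange q U (cube p) K K' → GenSymm n K
  | prod {m n N : ℕ} {K : Set (E m)} {L : Set (E n)} {M : Set (E N)} :
      GenSymm m K → GenSymm n L → IsSym M → ProductOf K L M → GenSymm N M
  | polar {n : ℕ} {K : Set (E n)} : GenSymm n K → GenSymm n (polarAt K 0)

/-- Bodies generated from the bodies `Generated` (all bodies of dimension at most three,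
polytopes with few vertices, locally anti-blocking bodies, bodies with big blocks of rotations),
from the symmetric bodies `GenSymm`, and from the bodies `K` filling at least the part
`e^(-7(p - 10 q - 84)/200)` of a body `V` fibred over `ℝ^q` by homothets of a symmetric body
`U ⊆ ℝᵖ` with `P(U) ≥ 4^p / p!`, by joins, products, polarity at the centroid, gluings, fibre
sums of two bodies that are not both simplices, and the exchange of the fibre in a body that is
not a simplex, from the cube to such a `U`. -/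
inductive GenMahler : ∀ n : ℕ, Set (E n) → Prop
  | base {n : ℕ} {K : Set (E n)} : Generated n K → GenMahler n K
  | symm {n : ℕ} {K : Set (E n)} : GenSymm n K → GenMahler n K
  | fill {q p n : ℕ} {U : Set (E p)} {K V : Set (E n)} : 1 ≤ p → IsConvexBody U →
      IsSym U → ENNReal.ofReal (4 ^ p / (p.factorial : ℝ)) ≤ volumeProduct U →
      IsConvexBody V → FibredBy q U V → IsConvexBody K → K ⊆ V →
      volume V ≤ ENNReal.ofReal (Real.exp (7 / 200 * ((p : ℝ) - 10 * q - 84))) * volume K →
      GenMahler n K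
  | exch {q p n : ℕ} {U : Set (E p)} {K K' : Set (E n)} : 1 ≤ p → IsConvexBody U →
      IsSym U → ENNReal.ofReal (4 ^ p / (p.factorial : ℝ)) ≤ volumeProduct U →
      GenMahler n K' → ¬ IsSimplex K' → IsConvexBody K → IsExchange q U (cube p) K K' →
      GenMahler n K
  | join {m n N : ℕ} {K : Set (E m)} {L : Set (E n)} {M : Set (E N)} :
      GenMahler m K → GenMahler n L → JoinOf K L M → GenMahler N M
  | prod {m n N : ℕ} {K : Set (E m)} {L : Set (E n)} {M : Set (E N)} :
      GenMahler m K → GenMahler n L → ProductOf K L M → GenMahler N M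
  | polar {n : ℕ} {K : Set (E n)} : GenMahler n K → GenMahler n (centroidPolar K)
  | glue {n : ℕ} {K K₁ K₂ : Set (E n)} : GenMahler n K₁ → GenMahler n K₂ → Convex ℝ K →
      IsGluing K K₁ K₂ → GenMahler n K
  | fibreSum {n : ℕ} {K K₁ K₂ : Set (E n)} : GenMahler n K₁ → GenMahler n K₂ →
      ¬ (IsSimplex K₁ ∧ IsSimplex K₂) → IsFibreSum K K₁ K₂ → GenMahler n K

end Vale.Agent.P248.H917
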