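import Vale.Agent.P248.H917.Fr

/-!
P248: laws for bodies with homothetic fibres.
-/

open MeasureTheory Set
open scoped ENNReal

namespace Vale.Agent.P248.H917

open Vale.Agent.P254.H242 (yp xp sp fb HG HH)
open Vale.Agent.P248.H432

variable {n q p : ℕ}

/-- **the exchange law for Q2** -/
theorem law_q2 (hp : 1 ≤ p) {U : Set (E p)} {K : Set (E n)} (hU : IsConvexBody U)
    (hs : ∀ x ∈ U, -x ∈ U) (hK : IsConvexBody K) (hF : FibredBy q U K) {t : ℝ}
    (ht : MahlerUpTo n t) : ENNReal.ofReal t * mahlerRatio U ≤ mahlerRatio K := by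
  rcases le_or_gt t 0 with h0 | h0
  · rw [ENNReal.ofReal_of_nonpos h0, zero_mul]
    exact zero_le
  obtain ⟨rfl, o, f, g, hF⟩ := hF
  obtain ⟨b, hb⟩ := exists_frame hF.1 hF.2.1 hF.2.2.1
  have hFb := fbr_frame hU hs hF hb
  have hU' := bd_frame hU 0 (sb p)
  have hi := zero_int hU' (sym_frame hs)
  have h1 := transfer (a := t * cn (q + p)) (c := cn p)
    (mul_nonneg h0.le (cn_pos _).le) (cn_pos p) hK hU (o := o) (b := b) hi
    fun z hz => fbr_upTo_at finSumFinEquiv.symm hp hU' hi (sym_frame hs) (bd_frame hK o b) hFb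
      ht hz
  have e1 : cn (q + p) = H432.simplexVal (q + p) := rfl
  have e2 : cn p = H432.simplexVal p := rfl
  rw [volumeProduct_eq_ratio U, volumeProduct_eq_ratio K, e1, e2, ENNReal.ofReal_mul h0.le] at h1
  have h2 : ENNReal.ofReal (H432.simplexVal p) * ENNReal.ofReal (H432.simplexVal (q + p)) *
      (ENNReal.ofReal t * mahlerRatio U) ≤ ENNReal.ofReal (H432.simplexVal p) *
        ENNReal.ofReal (H432.simplexVal (q + p)) * mahlerRatio K := by
    calc _ = ENNReal.ofReal t * ENNReal.ofReal (H432.simplexVal (q + p)) *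
          (mahlerRatio U * ENNReal.ofReal (H432.simplexVal p)) := by ring
      _ ≤ _ := h1
      _ = _ := by ring
  exact (ENNReal.mul_le_mul_iff_right (mul_ne_zero (ofReal_sv_ne_zero p) (ofReal_sv_ne_zero _))
    (ENNReal.mul_ne_top ENNReal.ofReal_ne_top ENNReal.ofReal_ne_top)).1 h2

theorem neg_frame {K : Set (E n)} (hneg : ∀ x ∈ K, -x ∈ K) (b : Module.Basis (Fin n) ℝ (E n)) :
    ∀ x ∈ frame 0 b ⁻¹' K, -x ∈ frame 0 b ⁻¹' K := by
  intro x hx
  have h2 := hneg _ hx
  have e : -frame 0 b x = frame 0 b (-x) := by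
    unfold frame
    rw [map_neg, zero_add, zero_add]
  rw [e] at h2
  exact h2

/-- **the law for Q1**, bases of dimension at most two -/
theorem law_q1 (hq : q ≤ 2) (hp : 1 ≤ p) {U : Set (E p)} {K : Set (E n)} (hU : IsConvexBody U)
    (hs : ∀ x ∈ U, -x ∈ U) (hK : IsConvexBody K) (hneg : ∀ x ∈ K, -x ∈ K)
    (hF : CentrallyFibredBy q U K) :
    ENNReal.ofReal (4 ^ n / (n.factorial : ℝ)) * volumeProduct U ≤
      ENNReal.ofReal (4 ^ p / (p.factorial : ℝ)) * volumeProduct K := by
  obtain ⟨rfl, f, g, hF⟩ := hF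
  obtain ⟨b, hb⟩ := exists_frame hF.1 hF.2.1 hF.2.2.1
  have hFb := fbr_frame hU hs hF hb
  have hU' := bd_frame hU 0 (sb p)
  have hi := zero_int hU' (sym_frame hs)
  exact transfer (by positivity) (by positivity) hK hU (o := 0) (b := b) hi
    fun z hz => q1_low_at finSumFinEquiv.symm hq hp hU' hi (sym_frame hs) (bd_frame hK 0 b) hFb
      (neg_frame hneg b) hz

/-- cancellation -/
theorem cancel_q1 {U : Set (E p)} {K : Set (E n)}
    (h : ENNReal.ofReal (4 ^ n / (n.factorial : ℝ)) * volumeProduct U ≤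
      ENNReal.ofReal (4 ^ p / (p.factorial : ℝ)) * volumeProduct K)
    (hU : ENNReal.ofReal (4 ^ p / (p.factorial : ℝ)) ≤ volumeProduct U) :
    ENNReal.ofReal (4 ^ n / (n.factorial : ℝ)) ≤ volumeProduct K := by
  have h1 := (mul_le_mul' (le_refl (ENNReal.ofReal (4 ^ n / (n.factorial : ℝ)))) hU).trans h
  rw [mul_comm] at h1
  refine (ENNReal.mul_le_mul_iff_right ?_ ENNReal.ofReal_ne_top).1 h1
  rw [Ne, ENNReal.ofReal_eq_zero, not_le]
  positivity

theorem centroid_symm {K : Set (E n)} (hneg : ∀ x ∈ K, -x ∈ K) : (⨍ x in K, x) = 0 := by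
  have e : K = (fun x => -x) ⁻¹' K := by
    ext x
    exact ⟨fun h => hneg x h, fun h => by
      have := hneg _ h
      simpa using this⟩
  have h1 : ∫ x in K, x = -∫ x in K, x := by
    have h2 := (Measure.measurePreserving_neg (volume : Measure (E n))).setIntegral_preimage_emb
      (MeasurableEquiv.neg (E n)).measurableEmbedding (fun x => x) K
    have h3 : (Neg.neg : E n → E n) ⁻¹' K = K := e.symm
    rw [h3, integral_neg] at h2
    exact h2.symm
  have h2 : ∫ x in K, x = 0 := by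
    have h3 : (2 : ℝ) • ∫ x in K, x = 0 := by
      rw [two_smul]
      nth_rewrite 2 [h1]
      rw [add_neg_cancel]
    exact (smul_eq_zero.1 h3).resolve_left (by norm_num)
  rw [setAverage_eq, h2, smul_zero]

end Vale.Agent.P248.H917
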