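import Vale.Agent.P248.H917.FGen
import Vale.Agent.P248.H242.Num

/-!
P248: the general Mahler conjecture for bodies fibred by homothets of a symmetric body.
-/

open MeasureTheory Set
open scoped ENNReal

namespace Vale.Agent.P248.H917

open Vale.Agent.P248.H432

variable {n q p : ℕ}

/-- the real form of the bound `4^p / p! ≤ P(U)` against the simplex, with near-sharp loss -/
theorem num_fib (q p : ℕ) :
    Real.exp (7 / 200 * ((p : ℝ) - 10 * q - 84)) * H432.simplexVal p <
      Real.exp (-(7 / 20 * (((q + p : ℕ) : ℝ) + 1))) * (4 ^ p / (p.factorial : ℝ)) := by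
  have h := Vale.Agent.P248.H242.gg_all p
  unfold Vale.Agent.P248.H242.GG at h
  have hf : (0 : ℝ) < p.factorial := by positivity
  unfold H432.simplexVal
  have e1 : Real.exp (7 / 200 * ((p : ℝ) - 10 * q - 84)) =
      Real.exp (-(7 / 20 * (((q + p : ℕ) : ℝ) + 1))) *
        Real.exp (77 / 200 * (p : ℝ) - 259 / 100) := by
    rw [← Real.exp_add]
    congr 1
    push_cast
    ring
  rw [e1, mul_assoc]
  refine mul_lt_mul_of_pos_left ?_ (Real.exp_pos _)
  rw [← mul_div_assoc, div_lt_div_iff₀ (by positivity) hf]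
  nlinarith [mul_lt_mul_of_pos_right h hf]

/-- monotonicity of the volume product -/
theorem ratio_mono {K V : Set (E n)} (hV : IsConvexBody V) (hKV : K ⊆ V) :
    mahlerRatio V * volume K ≤ mahlerRatio K * volume V := by
  have hv : volume V ≠ ⊤ := hV.1.measure_lt_top.ne
  have hv0 : volume V ≠ 0 := fun h => by
    have h1 := isOpen_interior.measure_pos volume hV.2.2
    exact h1.ne' (measure_mono_null interior_subset h)
  have h1 : volumeProduct V * volume K / volume V ≤ volumeProduct K := by
    refine le_iInf₂ fun z hz => ENNReal.div_le_of_le_mul ?_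
    have h2 : volumeProduct V ≤ volume V * volume (polarAt V z) :=
      iInf₂_le z (interior_mono hKV hz)
    have h3 : volume (polarAt V z) ≤ volume (polarAt K z) :=
      measure_mono fun y hy x hx => hy x (hKV hx)
    calc volumeProduct V * volume K ≤ volume V * volume (polarAt K z) * volume K :=
          mul_le_mul' (h2.trans (mul_le_mul' le_rfl h3)) le_rfl
      _ = _ := by ring
  have h2 := (ENNReal.div_le_iff hv0 hv).1 h1
  rw [volumeProduct_eq_ratio V, volumeProduct_eq_ratio K] at h2
  have h3 : ENNReal.ofReal (H432.simplexVal n) * (mahlerRatio V * volume K) ≤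
      ENNReal.ofReal (H432.simplexVal n) * (mahlerRatio K * volume V) := by
    calc _ = mahlerRatio V * ENNReal.ofReal (H432.simplexVal n) * volume K := by ring
      _ ≤ _ := h2
      _ = _ := by ring
  exact (ENNReal.mul_le_mul_iff_right (ofReal_sv_ne_zero n) ENNReal.ofReal_ne_top).1 h3

/-- **bodies fibred by homothets of a symmetric body satisfying Q1's inequality** -/
theorem ratio_fib (hp : 1 ≤ p) {U : Set (E p)} {V : Set (E n)} (hU : IsConvexBody U)
    (hs : ∀ x ∈ U, -x ∈ U) (hq : ENNReal.ofReal (4 ^ p / (p.factorial : ℝ)) ≤ volumeProduct U)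
    (hV : IsConvexBody V) (hF : FibredBy q U V) :
    ENNReal.ofReal (Real.exp (7 / 200 * ((p : ℝ) - 10 * q - 84))) < mahlerRatio V := by
  have hn : q + p = n := hF.1
  subst hn
  have h1 := law_q2 hp hU hs hV hF (t := Real.exp (-(7 / 20 * (((q + p : ℕ) : ℝ) + 1))))
    fun K hK => near_sharp175 hK
  refine lt_of_lt_of_le ?_ h1
  have h2 : ENNReal.ofReal (4 ^ p / (p.factorial : ℝ) / H432.simplexVal p) ≤ mahlerRatio U := by
    unfold mahlerRatio
    rw [ENNReal.ofReal_div_of_pos (simplexVal_pos p)]
    exact ENNReal.div_le_div_right hq _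
  refine lt_of_lt_of_le ?_ (mul_le_mul' le_rfl h2)
  rw [← ENNReal.ofReal_mul (Real.exp_pos _).le]
  have h3 := num_fib q p
  refine (ENNReal.ofReal_lt_ofReal_iff ?_).2 ?_
  · have := simplexVal_pos p
    positivity
  · rw [← mul_div_assoc, lt_div_iff₀ (simplexVal_pos p)]
    exact h3

/-- the form for bodies inside such a body -/
theorem ratio_fill (hp : 1 ≤ p) {U : Set (E p)} {K V : Set (E n)} (hU : IsConvexBody U)
    (hs : ∀ x ∈ U, -x ∈ U) (hq : ENNReal.ofReal (4 ^ p / (p.factorial : ℝ)) ≤ volumeProduct U)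
    (hV : IsConvexBody V) (hF : FibredBy q U V) (hK : IsConvexBody K) (hKV : K ⊆ V) :
    ENNReal.ofReal (Real.exp (7 / 200 * ((p : ℝ) - 10 * q - 84))) * volume K <
      mahlerRatio K * volume V := by
  have hk : volume K ≠ ⊤ := hK.1.measure_lt_top.ne
  have hk0 : volume K ≠ 0 := fun h => by
    have h1 := isOpen_interior.measure_pos volume hK.2.2
    exact h1.ne' (measure_mono_null interior_subset h)
  refine lt_of_lt_of_le ?_ (ratio_mono hV hKV)
  exact (ENNReal.mul_lt_mul_iff_left hk0 hk).2 (ratio_fib hp hU hs hq hV hF)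

end Vale.Agent.P248.H917
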