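import Vale.Agent.P248.H917.FLaws

/-!
P248: the exchange law for Q1, bases of any dimension.
-/

open MeasureTheory Set
open scoped ENNReal

namespace Vale.Agent.P248.H917

open Vale.Agent.P254.H242 (yp xp sp fb HG HH)
open Vale.Agent.P248.H432

variable {n q p : ℕ}

/-- Q1's inequality up to a factor, at a point -/
theorem symmUpTo_at {t : ℝ} (h : SymmMahlerUpTo n t) {K : Set (Fin n → ℝ)} (hK : Bd K)
    (hneg : ∀ x ∈ K, -x ∈ K) {z : Fin n → ℝ} (hz : z ∈ interior K) :
    t * (4 ^ n / (n.factorial : ℝ)) ≤ vp K z := by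
  obtain ⟨F, hF⟩ := frame_homeo (0 : E n) (sb n)
  have hFe : frame 0 (sb n) = F := funext fun u => (hF u).symm
  have hpre : frame 0 (sb n) ⁻¹' (frame 0 (sb n) '' K) = K := by
    rw [hFe]; exact F.preimage_image K
  have hb' : IsConvexBody (frame 0 (sb n) '' K) := body_of_CB (p := 0) (b := sb n) (by
    rw [hpre]; exact ⟨hK.2.1, hK.1, hK.2.2⟩)
  have hn' : ∀ x ∈ frame 0 (sb n) '' K, -x ∈ frame 0 (sb n) '' K := by
    rintro _ ⟨u, hu, rfl⟩
    refine ⟨-u, hneg u hu, ?_⟩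
    unfold frame
    rw [map_neg, zero_add, zero_add]
  have h1 := h _ hb' hn'
  rw [volumeProduct_eq_vp _ 0 (sb n), hpre] at h1
  have h2 : H432.vp K ≤ volume K * volume (polarP K z) := iInf₂_le z hz
  have h4 : volume K * volume (polarP K z) ≠ ⊤ :=
    ENNReal.mul_ne_top hK.2.1.measure_lt_top.ne (polarP_isBounded hz).measure_lt_top.ne
  have h5 := (ENNReal.ofReal_le_iff_le_toReal h4).1 (h1.trans h2)
  rwa [ENNReal.toReal_mul] at h5

/-- **the exchange law for Q1** -/
theorem law_symm (hp : 1 ≤ p) {U : Set (E p)} {K : Set (E n)} (hU : IsConvexBody U)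
    (hs : ∀ x ∈ U, -x ∈ U) (hK : IsConvexBody K) (hneg : ∀ x ∈ K, -x ∈ K)
    (hF : CentrallyFibredBy q U K) {t : ℝ} (ht : SymmMahlerUpTo n t) :
    ENNReal.ofReal (t * (4 ^ n / (n.factorial : ℝ))) * volumeProduct U ≤
      ENNReal.ofReal (4 ^ p / (p.factorial : ℝ)) * volumeProduct K := by
  obtain ⟨rfl, f, g, hF⟩ := hF
  rcases le_or_gt t 0 with h0 | h0
  · have h1 : t * (4 ^ (q + p) / ((q + p).factorial : ℝ)) ≤ 0 :=
      mul_nonpos_of_nonpos_of_nonneg h0 (by positivity)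
    rw [ENNReal.ofReal_of_nonpos h1, zero_mul]
    exact zero_le
  obtain ⟨b, hb⟩ := exists_frame hF.1 hF.2.1 hF.2.2.1
  have hFb := fbr_frame hU hs hF hb
  have hU' := bd_frame hU 0 (sb p)
  have hi := zero_int hU' (sym_frame hs)
  refine transfer (by positivity) (by positivity) hK hU (o := 0) (b := b) hi fun z hz => ?_
  obtain ⟨K', hK', hA, hB, z', hz', hle⟩ := exch_cube finSumFinEquiv.symm hp hU' hi
    (sym_frame hs) (bd_frame hK 0 b) hFb hz
  have hneg' := symm_of hA (hB (fun y => -y) (neg_base finSumFinEquiv.symm (sym_frame hs) hFb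
    (neg_frame hneg b)))
  exact (mul_le_mul_of_nonneg_left (symmUpTo_at ht hK' hneg' hz') (vp_nonneg _ 0)).trans hle

end Vale.Agent.P248.H917
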