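import Vale.Agent.P248.H917.Q1b
import Vale.Agent.P248.H917.FDefs
import Vale.Agent.P248.H432.Closed

/-!
P248: bodies with homothetic fibres in Euclidean space: coordinates.
-/

open MeasureTheory Set
open scoped ENNReal

namespace Vale.Agent.P248.H917

open Vale.Agent.P254.US (IsG ball isG_gauge)
open Vale.Agent.P254.H242 (yp xp sp fb HG HH)
open Vale.Agent.P248.H432

variable {n q p : ℕ}

/-- the coordinates of a fibration -/
theorem exists_frame {f : E q → E (q + p)} {g : E p → E (q + p)} (hf : IsLinearMap ℝ f)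
    (hg : IsLinearMap ℝ g) (hs : ∀ z, ∃ y x, z = f y + g x) :
    ∃ b : Module.Basis (Fin (q + p)) ℝ (E (q + p)), ∀ (o : E (q + p)) (u : Fin (q + p) → ℝ),
      frame o b u = o + f (WithLp.toLp 2 (yp finSumFinEquiv.symm u)) +
        g (WithLp.toLp 2 (xp finSumFinEquiv.symm u)) := by
  set ly : (Fin (q + p) → ℝ) →ₗ[ℝ] E q :=
    { toFun := fun u => WithLp.toLp 2 (yp finSumFinEquiv.symm u)
      map_add' := fun u v => rfl
      map_smul' := fun c u => rfl } with hly
  set lx : (Fin (q + p) → ℝ) →ₗ[ℝ] E p :=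
    { toFun := fun u => WithLp.toLp 2 (xp finSumFinEquiv.symm u)
      map_add' := fun u v => rfl
      map_smul' := fun c u => rfl } with hlx
  set L : (Fin (q + p) → ℝ) →ₗ[ℝ] E (q + p) :=
    (IsLinearMap.mk' f hf) ∘ₗ ly + (IsLinearMap.mk' g hg) ∘ₗ lx with hL
  have hLa : ∀ u, L u = f (WithLp.toLp 2 (yp finSumFinEquiv.symm u)) +
      g (WithLp.toLp 2 (xp finSumFinEquiv.symm u)) := fun u => rfl
  have hsurj : Function.Surjective L := by
    intro z
    obtain ⟨y, x, rfl⟩ := hs z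
    refine ⟨sp finSumFinEquiv.symm (y.ofLp, x.ofLp), ?_⟩
    rw [hLa, Vale.Agent.P254.H242.yp_sp, Vale.Agent.P254.H242.xp_sp]
  have hinj : Function.Injective L := by
    refine (LinearMap.injective_iff_surjective_of_finrank_eq_finrank ?_).2 hsurj
    rw [finrank_euclideanSpace, Module.finrank_fintype_fun_eq_card]
  refine ⟨Module.Basis.ofEquivFun (LinearEquiv.ofBijective L ⟨hinj, hsurj⟩).symm, fun o u => ?_⟩
  unfold frame
  rw [Module.Basis.equivFun_ofEquivFun, LinearEquiv.symm_symm]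
  show o + L u = _
  rw [hLa, add_assoc]

theorem bd_frame {K : Set (E n)} (hK : IsConvexBody K) (o : E n)
    (b : Module.Basis (Fin n) ℝ (E n)) : Bd (frame o b ⁻¹' K) := by
  have h := CB_frame hK o b
  exact ⟨h.cvx, h.cpt, h.ne⟩

theorem mem_frame_sb {U : Set (E p)} {x : Fin p → ℝ} :
    x ∈ frame 0 (sb p) ⁻¹' U ↔ WithLp.toLp 2 x ∈ U := by
  rw [mem_preimage, frame_sb, zero_add]

theorem sym_frame {U : Set (E p)} (hs : ∀ x ∈ U, -x ∈ U) :
    ∀ x ∈ frame 0 (sb p) ⁻¹' U, -x ∈ frame 0 (sb p) ⁻¹' U := by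
  intro x hx
  rw [mem_frame_sb] at hx ⊢
  exact hs _ hx

/-- the fibres in coordinates -/
theorem fbr_frame {o : E (q + p)} {f : E q → E (q + p)} {g : E p → E (q + p)} {U : Set (E p)}
    {K : Set (E (q + p))} (hU : IsConvexBody U) (hs : ∀ x ∈ U, -x ∈ U)
    (hF : IsFibration o f g U K) {b : Module.Basis (Fin (q + p)) ℝ (E (q + p))}
    (hb : ∀ (o : E (q + p)) (u : Fin (q + p) → ℝ),
      frame o b u = o + f (WithLp.toLp 2 (yp finSumFinEquiv.symm u)) +
        g (WithLp.toLp 2 (xp finSumFinEquiv.symm u))) :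
    Fbr finSumFinEquiv.symm (frame 0 (sb p) ⁻¹' U) (frame o b ⁻¹' K) := by
  have hU' := bd_frame hU 0 (sb p)
  have h0 := zero_int hU' (sym_frame hs)
  have hmem : ∀ (y : Fin q → ℝ) (x : Fin p → ℝ),
      x ∈ {x | sp finSumFinEquiv.symm (y, x) ∈ frame o b ⁻¹' K} ↔
        WithLp.toLp 2 x ∈ {x | o + f (WithLp.toLp 2 y) + g x ∈ K} := by
    intro y x
    show frame o b (sp finSumFinEquiv.symm (y, x)) ∈ K ↔ _
    rw [hb, Vale.Agent.P254.H242.yp_sp, Vale.Agent.P254.H242.xp_sp]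
    rfl
  intro y
  rcases hF.2.2.2 (WithLp.toLp 2 y) with h | ⟨r, hr, h⟩
  · left
    ext x
    rw [hmem, h]
    exact Iff.rfl
  · right
    refine ⟨r, hr, ?_⟩
    ext x
    rw [hmem, h]
    have h1 := mem_smul_iff hU' h0 hr x
    show _ ↔ gauge _ x ≤ r
    rw [← h1]
    constructor
    · rintro ⟨u, hu, h2⟩
      refine ⟨u.ofLp, mem_frame_sb.2 hu, ?_⟩
      funext i
      have h3 := congrArg (fun v : E p => v i) h2
      simpa using h3.symm
    · rintro ⟨u, hu, rfl⟩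
      refine ⟨WithLp.toLp 2 u, mem_frame_sb.1 hu, ?_⟩
      ext i
      simp

/-- the transfer of an inequality at every point -/
theorem transfer {a c : ℝ} (ha : 0 ≤ a) (hc : 0 < c) {K : Set (E n)} {U : Set (E p)}
    (hK : IsConvexBody K) (hU : IsConvexBody U)
    {o : E n} {b : Module.Basis (Fin n) ℝ (E n)}
    (h0 : (0 : Fin p → ℝ) ∈ interior (frame 0 (sb p) ⁻¹' U))
    (h : ∀ z ∈ interior (frame o b ⁻¹' K),
      vp (frame 0 (sb p) ⁻¹' U) 0 * a ≤ c * vp (frame o b ⁻¹' K) z) :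
    ENNReal.ofReal a * volumeProduct U ≤ ENNReal.ofReal c * volumeProduct K := by
  have hU' := bd_frame hU 0 (sb p)
  have hK' := bd_frame hK o b
  have h1 : volumeProduct U ≤ ENNReal.ofReal (vp (frame 0 (sb p) ⁻¹' U) 0) := by
    rw [volumeProduct_eq_vp U 0 (sb p)]
    refine (iInf₂_le 0 h0).trans ?_
    unfold vp
    rw [ENNReal.ofReal_mul ENNReal.toReal_nonneg,
      ENNReal.ofReal_toReal hU'.2.1.measure_lt_top.ne,
      ENNReal.ofReal_toReal (polarP_isBounded h0).measure_lt_top.ne]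
  have h2 : ENNReal.ofReal (a / c) * volumeProduct U ≤ volumeProduct K := by
    rw [volumeProduct_eq_vp K o b]
    refine le_iInf₂ fun z hz => ?_
    have h3 := h z hz
    have h4 : a / c * vp (frame 0 (sb p) ⁻¹' U) 0 ≤ vp (frame o b ⁻¹' K) z := by
      rw [div_mul_eq_mul_div, div_le_iff₀ hc]
      linarith
    calc ENNReal.ofReal (a / c) * volumeProduct U
        ≤ ENNReal.ofReal (a / c) * ENNReal.ofReal (vp (frame 0 (sb p) ⁻¹' U) 0) :=
          mul_le_mul' le_rfl h1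
      _ = ENNReal.ofReal (a / c * vp (frame 0 (sb p) ⁻¹' U) 0) :=
          (ENNReal.ofReal_mul (by positivity)).symm
      _ ≤ ENNReal.ofReal (vp (frame o b ⁻¹' K) z) := ENNReal.ofReal_le_ofReal h4
      _ ≤ _ := by
          unfold vp
          rw [ENNReal.ofReal_mul ENNReal.toReal_nonneg]
          exact mul_le_mul' ENNReal.ofReal_toReal_le ENNReal.ofReal_toReal_le
  have h5 : ENNReal.ofReal a = ENNReal.ofReal c * ENNReal.ofReal (a / c) := by
    rw [← ENNReal.ofReal_mul hc.le, mul_div_cancel₀ _ hc.ne']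
  rw [h5, mul_assoc]
  exact mul_le_mul' le_rfl h2

/-- near-sharp or sharp inequality in dimension `n`, at a point -/
theorem upTo_at {t : ℝ} (h : MahlerUpTo n t) {K : Set (Fin n → ℝ)} (hK : Bd K)
    {z : Fin n → ℝ} (hz : z ∈ interior K) : t * cn n ≤ vp K z := by
  obtain ⟨F, hF⟩ := frame_homeo (0 : E n) (sb n)
  have hFe : frame 0 (sb n) = F := funext fun u => (hF u).symm
  have hpre : frame 0 (sb n) ⁻¹' (frame 0 (sb n) '' K) = K := by
    rw [hFe]; exact F.preimage_image K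
  have hb' : IsConvexBody (frame 0 (sb n) '' K) := body_of_CB (p := 0) (b := sb n) (by
    rw [hpre]; exact ⟨hK.2.1, hK.1, hK.2.2⟩)
  have h1 := h _ hb'
  rw [volumeProduct_eq_vp _ 0 (sb n), hpre] at h1
  have h2 : H432.vp K ≤ volume K * volume (polarP K z) := iInf₂_le z hz
  have h4 : volume K * volume (polarP K z) ≠ ⊤ :=
    ENNReal.mul_ne_top hK.2.1.measure_lt_top.ne (polarP_isBounded hz).measure_lt_top.ne
  have h5 := (ENNReal.ofReal_le_iff_le_toReal h4).1 (h1.trans h2)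
  rwa [ENNReal.toReal_mul] at h5

/-- the exchange law at a point -/
theorem fbr_upTo_at (e : Fin n ≃ Fin q ⊕ Fin p) (hp : 1 ≤ p) {U : Set (Fin p → ℝ)} (hU : Bd U)
    (h0 : (0 : Fin p → ℝ) ∈ interior U) (hsym : ∀ x ∈ U, -x ∈ U) {K : Set (Fin n → ℝ)} (hK : Bd K)
    (hF : Fbr e U K) {t : ℝ} (ht : MahlerUpTo n t) {z : Fin n → ℝ} (hz : z ∈ interior K) :
    vp U 0 * (t * cn n) ≤ cn p * vp K z := by
  obtain ⟨hg, hb⟩ := isG_gauge hU h0
  obtain ⟨u, hu, hu0⟩ := exists_u0 hp hg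
  have hH := hg_HH_fbr hK hg hF hu hu0
  have hKe : fb e (HH e K u) (gauge U) = K := by
    ext x
    show (yp e x, gauge U (xp e x)) ∈ HH e K u ↔ x ∈ K
    rw [mem_HH hg hF hu, Vale.Agent.P254.H242.sp_yx]
  obtain ⟨W, hW, hW0, hWv⟩ := exists_simplex p
  rw [← hKe] at hz
  obtain ⟨hK', z', hz', hle⟩ := exchange e hH hp hU h0 hsym hW hW0 hz
  have h1 := upTo_at ht hK' hz'
  have h2 := mul_le_mul_of_nonneg_left h1 (vp_nonneg U 0)
  rw [hKe] at hle
  exact (h2.trans hle).trans (mul_le_mul_of_nonneg_right hWv (vp_nonneg K z))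

end Vale.Agent.P248.H917
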