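import Vale.Agent.P248.Bdl.B1
import Vale.Agent.P248.Bdl.B3
import Vale.Agent.P254.H242.Blk

/-!
P248: exchange of the fibres in the volume product.  `fb e H g` is the body with the fibres
`{g ≤ ρ(y)}`; its polar has the same form, with the dual base and the dual gauge.
-/

open MeasureTheory Set Topology

namespace Vale.Agent.P248.H917

open Vale.Agent.P254.US (IsG ball isG_gauge)
open Vale.Agent.P254.H242 (yp xp sp fb HG JJ rho)

variable {n q p : ℕ}

/-- convex body in coordinates -/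
abbrev Bd {n : ℕ} (K : Set (Fin n → ℝ)) : Prop := Vale.Agent.P254.IsConvexBody K

/-- the polar body with respect to the origin -/
abbrev P0 {n : ℕ} (W : Set (Fin n → ℝ)) : Set (Fin n → ℝ) := polarP W 0

theorem mem_P0 {W : Set (Fin p → ℝ)} {ξ : Fin p → ℝ} :
    ξ ∈ P0 W ↔ ∀ x ∈ W, ∑ i, x i * ξ i ≤ 1 := by
  simp only [P0, polarP, mem_ofPred_eq, Pi.zero_apply, sub_zero]

theorem P0_body {W : Set (Fin p → ℝ)} (hW : Bd W) (h0 : (0 : Fin p → ℝ) ∈ interior W) :
    Bd (P0 W) ∧ (0 : Fin p → ℝ) ∈ interior (P0 W) := by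
  have h1 : (0 : Fin p → ℝ) ∈ interior (P0 W) :=
    mem_interior_iff_mem_nhds.2 (polarP_mem_nhds hW.2.1.isBounded 0)
  exact ⟨⟨polarP_convex W 0,
    Metric.isCompact_of_isClosed_isBounded (polarP_isClosed W 0) (polarP_isBounded h0), ⟨0, h1⟩⟩, h1⟩

/-- a vector which has nonpositive products with a neighbourhood of zero vanishes -/
theorem eq_zero_of_le {W : Set (Fin p → ℝ)} (h0 : (0 : Fin p → ℝ) ∈ interior W) {ξ : Fin p → ℝ}
    (h : ∀ x ∈ W, ∑ i, x i * ξ i ≤ 0) : ξ = 0 := by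
  obtain ⟨ε, hε, hb⟩ := Metric.mem_nhds_iff.1 (mem_interior_iff_mem_nhds.1 h0)
  have h1 : (ε / (2 * (‖ξ‖ + 1))) • ξ ∈ W := by
    apply hb
    rw [mem_ball_zero_iff, norm_smul, Real.norm_of_nonneg (by positivity), div_mul_eq_mul_div,
      div_lt_iff₀ (by positivity)]
    nlinarith [norm_nonneg ξ]
  have h2 := h _ h1
  have h3 : ∑ i, ((ε / (2 * (‖ξ‖ + 1))) • ξ) i * ξ i = (ε / (2 * (‖ξ‖ + 1))) * ∑ i, ξ i ^ 2 := by
    rw [Finset.mul_sum]
    refine Finset.sum_congr rfl fun i _ => ?_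
    simp only [Pi.smul_apply, smul_eq_mul]
    ring
  rw [h3] at h2
  have h4 : ∑ i, ξ i ^ 2 ≤ 0 := by
    by_contra h5
    push Not at h5
    have : 0 < ε / (2 * (‖ξ‖ + 1)) := by positivity
    nlinarith [mul_pos this h5]
  have h5 := (Finset.sum_eq_zero_iff_of_nonneg fun i _ => sq_nonneg (ξ i)).1
    (le_antisymm h4 (Finset.sum_nonneg fun i _ => sq_nonneg _))
  funext i
  exact pow_eq_zero_iff (two_ne_zero) |>.1 (h5 i (Finset.mem_univ i))

theorem gauge_P0_le {W : Set (Fin p → ℝ)} (hW : Bd W) (h0 : (0 : Fin p → ℝ) ∈ interior W)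
    {ξ : Fin p → ℝ} {c : ℝ} (hc : 0 ≤ c) :
    gauge (P0 W) ξ ≤ c ↔ ∀ x ∈ W, ∑ i, x i * ξ i ≤ c := by
  obtain ⟨hP, hP0⟩ := P0_body hW h0
  obtain ⟨hg, hb⟩ := isG_gauge hP hP0
  rcases hc.eq_or_lt with rfl | hc
  · constructor
    · intro h x _
      obtain ⟨c, hc, h2⟩ := hg.coer
      have h3 := (h2 ξ).trans h
      have h4 : ‖ξ‖ = 0 := le_antisymm (by nlinarith [norm_nonneg ξ]) (norm_nonneg _)
      rw [norm_eq_zero.1 h4]
      simp
    · intro h
      rw [eq_zero_of_le h0 h, gauge_zero]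
  · have h1 : gauge (P0 W) ξ ≤ c ↔ c⁻¹ • ξ ∈ P0 W := by
      conv_rhs => rw [← hb]
      show _ ↔ gauge (P0 W) (c⁻¹ • ξ) ≤ 1
      rw [hg.smul _ (inv_pos.2 hc).le, inv_mul_le_iff₀ hc, mul_one]
    rw [h1, mem_P0]
    refine forall₂_congr fun x _ => ?_
    have h2 : ∑ i, x i * (c⁻¹ • ξ) i = c⁻¹ * ∑ i, x i * ξ i := by
      rw [Finset.mul_sum]
      refine Finset.sum_congr rfl fun i _ => ?_
      simp only [Pi.smul_apply, smul_eq_mul]
      ring
    rw [h2, inv_mul_le_iff₀ hc, mul_one]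

/-- the Cauchy-Schwarz inequality for dual gauges -/
theorem pair_le {W : Set (Fin p → ℝ)} (hW : Bd W) (h0 : (0 : Fin p → ℝ) ∈ interior W)
    (x ξ : Fin p → ℝ) : ∑ i, x i * ξ i ≤ gauge W x * gauge (P0 W) ξ := by
  obtain ⟨hg, hb⟩ := isG_gauge hW h0
  rcases (gauge_nonneg x (s := W)).eq_or_lt with h | h
  · obtain ⟨c, hc, h2⟩ := hg.coer
    have h3 := h2 x
    rw [← h] at h3
    have h4 : ‖x‖ = 0 := le_antisymm (by nlinarith [norm_nonneg x]) (norm_nonneg _)
    rw [← h, norm_eq_zero.1 h4]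
    simp
  · have h1 : (gauge W x)⁻¹ • x ∈ ball (gauge W) := by
      show gauge W _ ≤ 1
      rw [hg.smul _ (inv_pos.2 h).le, inv_mul_cancel₀ h.ne']
    rw [hb] at h1
    have h2 := (gauge_P0_le hW h0 (gauge_nonneg ξ)).1 le_rfl _ h1
    have h3 : ∑ i, ((gauge W x)⁻¹ • x) i * ξ i = (gauge W x)⁻¹ * ∑ i, x i * ξ i := by
      rw [Finset.mul_sum]
      refine Finset.sum_congr rfl fun i _ => ?_
      simp only [Pi.smul_apply, smul_eq_mul]
      ring
    rwa [h3, inv_mul_le_iff₀ h] at h2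

/-- splitting of the scalar product -/
theorem sum_split (e : Fin n ≃ Fin q ⊕ Fin p) (f : Fin n → ℝ) :
    ∑ i, f i = ∑ j, f (e.symm (Sum.inl j)) + ∑ j, f (e.symm (Sum.inr j)) := by
  rw [← Equiv.sum_comp e.symm, Fintype.sum_sum_type]

/-- the dual base -/
def HP (H : Set ((Fin q → ℝ) × ℝ)) (y0 : Fin q → ℝ) : Set ((Fin q → ℝ) × ℝ) :=
  {w | 0 ≤ w.2 ∧ ∀ v ∈ H, ∑ j, (v.1 j - y0 j) * w.1 j + v.2 * w.2 ≤ 1}

/-- **the polar of a fibred body** -/
theorem polar_fb (e : Fin n ≃ Fin q ⊕ Fin p) {H : Set ((Fin q → ℝ) × ℝ)} (hH : HG H)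
    {W : Set (Fin p → ℝ)} (hW : Bd W) (h0 : (0 : Fin p → ℝ) ∈ interior W) {z : Fin n → ℝ}
    (hz : xp e z = 0) :
    polarP (fb e H (gauge W)) z = fb e (HP H (yp e z)) (gauge (P0 W)) := by
  obtain ⟨hg, hb⟩ := isG_gauge hW h0
  have hsum : ∀ v w : Fin n → ℝ, ∑ i, (v i - z i) * w i =
      ∑ j, (yp e v j - yp e z j) * yp e w j + ∑ j, xp e v j * xp e w j := by
    intro v w
    rw [sum_split e]
    congr 1
    refine Finset.sum_congr rfl fun j _ => ?_
    have : z (e.symm (Sum.inr j)) = 0 := congrFun hz j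
    rw [this, sub_zero]
    rfl
  ext w
  constructor
  · intro hw
    refine ⟨gauge_nonneg _, ?_⟩
    rintro ⟨y, r⟩ hv
    have hr : 0 ≤ r := hH.nn y r hv
    have key : ∀ x : Fin p → ℝ, gauge W x ≤ r →
        ∑ j, (y j - yp e z j) * yp e w j + ∑ j, x j * xp e w j ≤ 1 := by
      intro x hx
      have h1 : sp e (y, x) ∈ fb e H (gauge W) := by
        show (yp e (sp e (y, x)), gauge W (xp e (sp e (y, x)))) ∈ H
        rw [Vale.Agent.P254.H242.yp_sp, Vale.Agent.P254.H242.xp_sp]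
        exact hH.down _ _ _ hv (gauge_nonneg _) hx
      have h2 := hw _ h1
      rwa [hsum, Vale.Agent.P254.H242.yp_sp, Vale.Agent.P254.H242.xp_sp] at h2
    show ∑ j, (y j - yp e z j) * yp e w j + r * gauge (P0 W) (xp e w) ≤ 1
    have hk0 := key 0 (by rw [gauge_zero]; exact hr)
    simp only [Pi.zero_apply, zero_mul, Finset.sum_const_zero, add_zero] at hk0
    rcases hr.eq_or_lt with rfl | hr
    · rw [zero_mul, add_zero]
      exact hk0
    · set A := ∑ j, (y j - yp e z j) * yp e w j with hA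
      have h3 : gauge (P0 W) (xp e w) ≤ (1 - A) / r := by
        refine (gauge_P0_le hW h0 (div_nonneg (by linarith) hr.le)).2 fun x hx => ?_
        have hx1 : gauge W x ≤ 1 := by rw [← hb] at hx; exact hx
        have h4 := key (r • x) (by rw [hg.smul _ hr.le]; nlinarith)
        have h5 : ∑ j, (r • x) j * xp e w j = r * ∑ j, x j * xp e w j := by
          rw [Finset.mul_sum]
          refine Finset.sum_congr rfl fun i _ => ?_
          simp only [Pi.smul_apply, smul_eq_mul]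
          ring
        rw [h5] at h4
        rw [le_div_iff₀ hr]
        linarith
      rw [le_div_iff₀ hr] at h3
      linarith
  · rintro ⟨-, hw⟩ v hv
    rw [hsum]
    have h1 := hw _ hv
    have h2 := pair_le hW h0 (xp e v) (xp e w)
    have h3 : ∑ j, (yp e v j - yp e z j) * yp e w j +
      gauge W (xp e v) * gauge (P0 W) (xp e w) ≤ 1 := h1
    linarith

/-- the base contains a neighbourhood -/
def Nb (H : Set ((Fin q → ℝ) × ℝ)) (y0 : Fin q → ℝ) : Prop :=
  ∃ δ : ℝ, 0 < δ ∧ ∀ (y : Fin q → ℝ) (r : ℝ), ‖y - y0‖ ≤ δ → 0 ≤ r → r ≤ δ → (y, r) ∈ H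

theorem nb_of_int (e : Fin n ≃ Fin q ⊕ Fin p) {H : Set ((Fin q → ℝ) × ℝ)} {g : (Fin p → ℝ) → ℝ}
    (hg : IsG g) (hp : 1 ≤ p) {z : Fin n → ℝ} (hz : z ∈ interior (fb e H g))
    (hz0 : xp e z = 0) : Nb H (yp e z) := by
  obtain ⟨ε, hε, hb⟩ := Metric.mem_nhds_iff.1 (mem_interior_iff_mem_nhds.1 hz)
  obtain ⟨c, hc, hcg⟩ := hg.coer
  set x1 : Fin p → ℝ := fun _ => 1 with hx1
  have hn1 : ‖x1‖ = 1 := by
    have : Nonempty (Fin p) := ⟨⟨0, hp⟩⟩
    rw [hx1, pi_norm_const, norm_one]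
  have hg1 : 0 < g x1 := lt_of_lt_of_le (by rw [hn1]; linarith) (hcg x1)
  refine ⟨min (ε / 2) (ε / 2 * g x1), by positivity, fun y r hy hr0 hr => ?_⟩
  have hy1 := hy.trans (min_le_left _ _)
  have hr1 := hr.trans (min_le_right _ _)
  have h1 : sp e (y, (r / g x1) • x1) ∈ fb e H g := by
    apply hb
    rw [mem_ball_iff_norm]
    refine lt_of_le_of_lt (b := ε / 2) ?_ (by linarith)
    refine (pi_norm_le_iff_of_nonneg (by positivity)).2 fun i => ?_
    obtain ⟨s, rfl⟩ := e.symm.surjective i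
    rcases s with j | j
    · rw [Pi.sub_apply, Vale.Agent.P254.H242.sp_inl]
      exact (norm_le_pi_norm (y - yp e z) j).trans hy1
    · rw [Pi.sub_apply, Vale.Agent.P254.H242.sp_inr]
      have : z (e.symm (Sum.inr j)) = 0 := congrFun hz0 j
      rw [this, sub_zero]
      simp only [Pi.smul_apply, smul_eq_mul, hx1, mul_one]
      rw [Real.norm_of_nonneg (by positivity), div_le_iff₀ hg1]
      exact hr1
  have h2 : (yp e (sp e (y, (r / g x1) • x1)), g (xp e (sp e (y, (r / g x1) • x1)))) ∈ H := h1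
  rwa [Vale.Agent.P254.H242.yp_sp, Vale.Agent.P254.H242.xp_sp, hg.smul _ (by positivity),
    div_mul_cancel₀ _ hg1.ne'] at h2

theorem int_of_nb (e : Fin n ≃ Fin q ⊕ Fin p) {H : Set ((Fin q → ℝ) × ℝ)} {g : (Fin p → ℝ) → ℝ}
    (hg : IsG g) {z : Fin n → ℝ} (hz0 : xp e z = 0) (h : Nb H (yp e z)) :
    z ∈ interior (fb e H g) := by
  obtain ⟨δ, hδ, h⟩ := h
  have hg0 : g 0 = 0 := by
    have := hg.smul 0 le_rfl 0
    simpa using this
  have hU : IsOpen {v : Fin n → ℝ | ‖yp e v - yp e z‖ < δ ∧ g (xp e v) < δ} := by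
    have c1 : Continuous fun v : Fin n → ℝ => ‖yp e v - yp e z‖ :=
      ((Vale.Agent.P254.H242.cont_yp e).sub continuous_const).norm
    have c2 : Continuous fun v : Fin n → ℝ => g (xp e v) :=
      hg.cont.comp (Vale.Agent.P254.H242.cont_xp e)
    exact (isOpen_lt c1 continuous_const).inter (isOpen_lt c2 continuous_const)
  refine interior_maximal (fun v hv => ?_) hU ⟨by simpa using hδ, by rw [hz0, hg0]; exact hδ⟩
  exact h _ _ hv.1.le (hg.nonneg _) hv.2.le

theorem hg_HP {H : Set ((Fin q → ℝ) × ℝ)} (hH : HG H) {y0 : Fin q → ℝ} (h : Nb H y0) :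
    HG (HP H y0) := by
  refine ⟨?_, ?_, fun y r h => h.1, ?_⟩
  · intro w hw w' hw' a b ha hb hab
    refine ⟨?_, fun v hv => ?_⟩
    · show 0 ≤ a * w.2 + b * w'.2
      have := mul_nonneg ha hw.1
      have := mul_nonneg hb hw'.1
      linarith
    · have h1 := mul_le_mul_of_nonneg_left (hw.2 v hv) ha
      have h2 := mul_le_mul_of_nonneg_left (hw'.2 v hv) hb
      have h3 : ∑ j, (v.1 j - y0 j) * (a • w + b • w').1 j + v.2 * (a • w + b • w').2 =
          a * (∑ j, (v.1 j - y0 j) * w.1 j + v.2 * w.2) +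
            b * (∑ j, (v.1 j - y0 j) * w'.1 j + v.2 * w'.2) := by
        rw [mul_add, mul_add, Finset.mul_sum, Finset.mul_sum]
        have e1 : ∑ j, (v.1 j - y0 j) * (a • w + b • w').1 j =
            ∑ j, a * ((v.1 j - y0 j) * w.1 j) + ∑ j, b * ((v.1 j - y0 j) * w'.1 j) := by
          rw [← Finset.sum_add_distrib]
          refine Finset.sum_congr rfl fun j _ => ?_
          show (v.1 j - y0 j) * (a * w.1 j + b * w'.1 j) = _
          ring
        rw [e1]
        show _ + v.2 * (a * w.2 + b * w'.2) = _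
        ring
      rw [h3]
      linarith
  · refine Metric.isCompact_of_isClosed_isBounded ?_ ?_
    · have : HP H y0 = {w | 0 ≤ w.2} ∩
          ⋂ v ∈ H, {w : (Fin q → ℝ) × ℝ | ∑ j, (v.1 j - y0 j) * w.1 j + v.2 * w.2 ≤ 1} := by
        ext w
        simp only [HP, mem_ofPred_eq, mem_inter_iff, mem_iInter]
      rw [this]
      refine (isClosed_le continuous_const continuous_snd).inter
        (isClosed_biInter fun v _ => isClosed_le ?_ continuous_const)
      fun_prop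
    · obtain ⟨δ, hδ, hn⟩ := h
      refine isBounded_iff_forall_norm_le.2 ⟨δ⁻¹, fun w hw => ?_⟩
      have hs : δ * w.2 ≤ 1 := by
        have := hw.2 _ (hn y0 δ (by simpa using hδ.le) hδ.le le_rfl)
        simpa using this
      refine (Prod.norm_def w).le.trans (max_le ?_ ?_)
      · refine (pi_norm_le_iff_of_nonneg (inv_pos.2 hδ).le).2 fun i => ?_
        have key : ∀ s : ℝ, |s| ≤ δ → s * w.1 i ≤ 1 := by
          intro s hs
          have h1 : (y0 + Pi.single i s, (0 : ℝ)) ∈ H :=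
            hn _ _ (by rw [add_sub_cancel_left, Pi.norm_single]; exact hs) le_rfl hδ.le
          have h2 := hw.2 _ h1
          simpa [Pi.single_apply] using h2
        have h1 := key δ (abs_of_pos hδ).le
        have h2 := key (-δ) (by rw [abs_neg]; exact (abs_of_pos hδ).le)
        rw [Real.norm_eq_abs, abs_le, inv_eq_one_div]
        constructor
        · rw [neg_le, le_div_iff₀ hδ]; linarith
        · rw [le_div_iff₀ hδ]; linarith
      · rw [Real.norm_of_nonneg hw.1, inv_eq_one_div, le_div_iff₀ hδ]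
        linarith
  · rintro y r s hr hs hsr
    refine ⟨hs, fun v hv => ?_⟩
    have h1 := hr.2 v hv
    have h2 := mul_le_mul_of_nonneg_left hsr (hH.nn v.1 v.2 hv)
    show ∑ j, (v.1 j - y0 j) * y j + v.2 * s ≤ 1
    have h3 : ∑ j, (v.1 j - y0 j) * y j + v.2 * r ≤ 1 := h1
    linarith

/-- the volume product at a point -/
noncomputable def vp {n : ℕ} (K : Set (Fin n → ℝ)) (z : Fin n → ℝ) : ℝ :=
  (volume K).toReal * (volume (polarP K z)).toReal

/-- **the volume product of a fibred body** -/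
theorem vp_fb (e : Fin n ≃ Fin q ⊕ Fin p) {H : Set ((Fin q → ℝ) × ℝ)} (hH : HG H) (hp : 1 ≤ p)
    {W : Set (Fin p → ℝ)} (hW : Bd W) (h0 : (0 : Fin p → ℝ) ∈ interior W) {z : Fin n → ℝ}
    (hz : xp e z = 0) (hn : Nb H (yp e z)) :
    vp (fb e H (gauge W)) z = (JJ p H 0 (fun _ => 1) * JJ p (HP H (yp e z)) 0 (fun _ => 1)) *
      vp W 0 := by
  obtain ⟨hg, hb⟩ := isG_gauge hW h0
  obtain ⟨hP, hP0⟩ := P0_body hW h0
  obtain ⟨hg', hb'⟩ := isG_gauge hP hP0
  have h1 := Vale.Agent.P254.H242.vol_fb e hH hg hp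
  have h2 := Vale.Agent.P254.H242.vol_fb e (hg_HP hH hn) hg' hp
  unfold vp
  rw [polar_fb e hH hW h0 hz, h1, h2, hb, hb']
  ring

end Vale.Agent.P248.H917
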