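import Vale.Agent.P248.H917.Fib
import Vale.Agent.P254.H242.Num

/-!
P248: the theorems at the statement level.
-/

open MeasureTheory Set Topology Matrix
open scoped Pointwise

namespace Vale.Agent.P248.H917

open Vale.Agent.P254.US (IsG ball isG_gauge)
open Vale.Agent.P254.H242 (yp xp sp fb HG JJ rho HH RR kap RInv)

variable {n q p : ℕ}

/-- `(p + 1)^(p + 1) / (p! |B|)²` for the Euclidean ball `B` of dimension `p` -/
noncomputable def ballRatio (p : ℕ) : ℝ :=
  ((p : ℝ) + 1) ^ (p + 1) / (p.factorial * ballVol p) ^ 2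

theorem ballRatio_eq (p : ℕ) : ballRatio p = RR p := rfl

theorem simplexVal_eq (p : ℕ) : simplexVal p = cn p := rfl

theorem rotIn_iff (T : Finset (Fin n)) (K : Set (Fin n → ℝ)) : RotIn T K ↔ RInv T K := Iff.rfl

/-- near-sharp inequality for all bodies -/
theorem part_all {K : Set (EuclideanSpace ℝ (Fin n))} (hK : IsConvexBody K) :
    ENNReal.ofReal (Real.exp (-(7 / 20 * ((n : ℝ) + 1))) * simplexVal n) ≤ volumeProduct K :=
  vP_ge 0 (EuclideanSpace.basisFun (Fin n) ℝ).toBasis fun _ hz =>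
    near_sharp_at (coords_body _ _ hK) hz

theorem coords_mono (o : EuclideanSpace ℝ (Fin n))
    (b : Module.Basis (Fin n) ℝ (EuclideanSpace ℝ (Fin n))) {K V : Set (EuclideanSpace ℝ (Fin n))}
    (h : K ⊆ V) : coords o b K ⊆ coords o b V := fun _ hu => h hu

/-- the volume in the frame -/
theorem vol_coords (o : EuclideanSpace ℝ (Fin n))
    (b : Module.Basis (Fin n) ℝ (EuclideanSpace ℝ (Fin n))) : ∃ c : ENNReal, c ≠ 0 ∧ c ≠ ⊤ ∧
      ∀ K : Set (EuclideanSpace ℝ (Fin n)), volume (coords o b K) = c * volume K := by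
  set e : EuclideanSpace ℝ (Fin n) ≃L[ℝ] (Fin n → ℝ) := EuclideanSpace.equiv (Fin n) ℝ with he
  have hmp : MeasurePreserving (e : EuclideanSpace ℝ (Fin n) → (Fin n → ℝ)) :=
    PiLp.volume_preserving_ofLp (Fin n)
  have hme : MeasurableEmbedding (e : EuclideanSpace ℝ (Fin n) → (Fin n → ℝ)) :=
    e.toHomeomorph.measurableEmbedding
  -- the linear map of the frame
  set L : (Fin n → ℝ) ≃ₗ[ℝ] (Fin n → ℝ) := b.equivFun.symm.trans e.toLinearEquiv with hL
  have hdet : LinearMap.det (L : (Fin n → ℝ) →ₗ[ℝ] (Fin n → ℝ)) ≠ 0 :=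
    (LinearEquiv.isUnit_det' L).ne_zero
  refine ⟨ENNReal.ofReal |(LinearMap.det (L : (Fin n → ℝ) →ₗ[ℝ] (Fin n → ℝ)))⁻¹|, ?_,
    ENNReal.ofReal_ne_top, fun K => ?_⟩
  · rw [ENNReal.ofReal_ne_zero_iff]
    exact abs_pos.2 (inv_ne_zero hdet)
  · have h1 : coords o b K = L ⁻¹' ((fun x => e o + x) ⁻¹' (e '' K)) := by
      ext u
      rw [coords_eq]
      constructor
      · intro hu
        refine ⟨frame o b u, hu, ?_⟩
        unfold frame
        rw [map_add]
        rfl
      · rintro ⟨x, hx, hxu⟩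
        have : x = frame o b u := by
          apply e.injective
          rw [hxu]
          unfold frame
          rw [map_add]
          rfl
        rw [mem_preimage, ← this]
        exact hx
    rw [h1]
    have h2 := Measure.addHaar_preimage_linearMap volume hdet ((fun x => e o + x) ⁻¹' (e '' K))
    have h3 : volume ((fun x => e o + x) ⁻¹' (e '' K)) = volume K := by
      rw [measure_preimage_add, ← hmp.measure_preimage_emb hme, Set.preimage_image_eq _ e.injective]
    rw [h3] at h2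
    exact h2

theorem vp_mono {K V : Set (Fin n → ℝ)} (hV : Bd V) (hKV : K ⊆ V)
    {t : ℝ} (ht : 0 ≤ t) (hvol : t * (volume V).toReal ≤ (volume K).toReal) {z : Fin n → ℝ}
    (hz : z ∈ interior K) : t * vp V z ≤ vp K z := by
  have h1 : (volume (polarP V z)).toReal ≤ (volume (polarP K z)).toReal :=
    ENNReal.toReal_mono (polarP_isBounded hz).measure_lt_top.ne
      (measure_mono fun y hy x hx => hy x (hKV hx))
  unfold vp
  calc t * ((volume V).toReal * (volume (polarP V z)).toReal)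
      = (t * (volume V).toReal) * (volume (polarP V z)).toReal := by ring
    _ ≤ (volume K).toReal * (volume (polarP K z)).toReal :=
        mul_le_mul hvol h1 ENNReal.toReal_nonneg ENNReal.toReal_nonneg

theorem vol_cond (o : EuclideanSpace ℝ (Fin n))
    (b : Module.Basis (Fin n) ℝ (EuclideanSpace ℝ (Fin n))) {K V : Set (EuclideanSpace ℝ (Fin n))}
    (hK : IsConvexBody K) {t : ℝ} (ht : 0 ≤ t)
    (hvol : ENNReal.ofReal t * volume V ≤ volume K) :
    t * (volume (coords o b V)).toReal ≤ (volume (coords o b K)).toReal := by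
  obtain ⟨c, hc0, hc, h⟩ := vol_coords o b
  rw [h, h, ENNReal.toReal_mul, ENNReal.toReal_mul]
  have h1 := ENNReal.toReal_mono hK.1.measure_lt_top.ne hvol
  rw [ENNReal.toReal_mul, ENNReal.toReal_ofReal ht] at h1
  have h2 := mul_le_mul_of_nonneg_left h1 (ENNReal.toReal_nonneg (a := c))
  linarith

/-- bodies filling a part of a body with rotational symmetries -/
theorem part_rot {m : ℕ} {K V : Set (EuclideanSpace ℝ (Fin n))} (hK : IsConvexBody K)
    (hV : IsConvexBody V) (hKV : K ⊆ V) {t : ℝ} (ht : 0 < t)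
    (hvol : ENNReal.ofReal t * volume V ≤ volume K) (o : EuclideanSpace ℝ (Fin n))
    (b : Module.Basis (Fin n) ℝ (EuclideanSpace ℝ (Fin n))) {T : Fin m → Finset (Fin n)}
    (hT : ∀ i j, i ≠ j → Disjoint (T i) (T j)) (hR : ∀ i, RotIn (T i) (coords o b V)) :
    ENNReal.ofReal (t * Real.exp (-(7 / 20 * ((n : ℝ) + 1))) / (∏ i, ballRatio (T i).card) *
      simplexVal n) ≤ volumeProduct K := by
  refine vP_ge o b fun z hz => ?_
  have hz' : z ∈ interior (coords o b V) := interior_mono (coords_mono o b hKV) hz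
  have h1 := rot_at T hT (coords_body o b hV) hR hz'
  have h2 := vp_mono (coords_body o b hV) (coords_mono o b hKV) ht.le
    (vol_cond o b hK ht.le hvol) hz
  have h3 : 0 < ∏ i, RR (T i).card := Finset.prod_pos fun i _ => Vale.Agent.P254.H242.RR_pos _
  have h4 : t * (Real.exp (-(7 / 20 * ((n : ℝ) + 1))) * cn n) ≤
      (∏ i, RR (T i).card) * vp (coords o b K) z := by
    have h5 := mul_le_mul_of_nonneg_left h1 ht.le
    have h6 := mul_le_mul_of_nonneg_left h2 h3.le
    linarith
  simp only [ballRatio_eq, simplexVal_eq]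
  rw [div_mul_eq_mul_div, div_le_iff₀ h3]
  linarith

/-- from a lower bound above the value of the simplex to the strict inequality -/
theorem strict_of {K : Set (EuclideanSpace ℝ (Fin n))} {a : ℝ} (ha : 1 < a)
    (h : ENNReal.ofReal (a * simplexVal n) ≤ volumeProduct K) :
    ENNReal.ofReal (simplexVal n) < volumeProduct K := by
  have h1 : 0 < simplexVal n := cn_pos n
  refine lt_of_lt_of_le ((ENNReal.ofReal_lt_ofReal_iff (by positivity)).2 ?_) h
  nlinarith

theorem part_rot_strict {m : ℕ} {K V : Set (EuclideanSpace ℝ (Fin n))} (hK : IsConvexBody K)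
    (hV : IsConvexBody V) (hKV : K ⊆ V) {t : ℝ} (ht : 0 < t)
    (hvol : ENNReal.ofReal t * volume V ≤ volume K) (o : EuclideanSpace ℝ (Fin n))
    (b : Module.Basis (Fin n) ℝ (EuclideanSpace ℝ (Fin n))) {T : Fin m → Finset (Fin n)}
    (hT : ∀ i j, i ≠ j → Disjoint (T i) (T j)) (hR : ∀ i, RotIn (T i) (coords o b V))
    (h : Real.exp (7 / 20 * ((n : ℝ) + 1)) * ∏ i, ballRatio (T i).card < t) :
    ENNReal.ofReal (simplexVal n) < volumeProduct K := by
  refine strict_of ?_ (part_rot hK hV hKV ht hvol o b hT hR)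
  have h3 : 0 < ∏ i, ballRatio (T i).card :=
    Finset.prod_pos fun i _ => Vale.Agent.P254.H242.RR_pos _
  rw [lt_div_iff₀ h3, one_mul]
  have h4 : Real.exp (-(7 / 20 * ((n : ℝ) + 1))) * Real.exp (7 / 20 * ((n : ℝ) + 1)) = 1 := by
    rw [← Real.exp_add, neg_add_cancel, Real.exp_zero]
  have h5 := mul_lt_mul_of_pos_left h (Real.exp_pos (-(7 / 20 * ((n : ℝ) + 1))))
  rw [← mul_assoc, h4, one_mul] at h5
  linarith

/-! ### bodies with homothetic fibres -/

theorem sp_append (y : Fin q → ℝ) (x : Fin p → ℝ) :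
    sp finSumFinEquiv.symm (y, x) = Fin.append y x := by
  funext i
  refine Fin.addCases (fun j => ?_) (fun j => ?_) i
  · have h := Vale.Agent.P254.H242.sp_inl
      (finSumFinEquiv.symm : Fin (q + p) ≃ Fin q ⊕ Fin p) (y, x) j
    simpa using h
  · have h := Vale.Agent.P254.H242.sp_inr
      (finSumFinEquiv.symm : Fin (q + p) ≃ Fin q ⊕ Fin p) (y, x) j
    simpa using h

theorem mem_smul_iff {U : Set (Fin p → ℝ)} (hU : Bd U) (h0 : (0 : Fin p → ℝ) ∈ interior U)
    {r : ℝ} (hr : 0 ≤ r) (x : Fin p → ℝ) :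
    (∃ u ∈ U, x = fun i => r * u i) ↔ gauge U x ≤ r := by
  obtain ⟨hg, hb⟩ := isG_gauge hU h0
  constructor
  · rintro ⟨u, hu, rfl⟩
    have h1 : gauge U u ≤ 1 := by
      rw [← hb] at hu
      exact hu
    have h2 : gauge U (fun i => r * u i) = r * gauge U u := hg.smul r hr u
    rw [h2]
    nlinarith [gauge_nonneg (s := U) u]
  · intro h
    rcases hr.eq_or_lt with rfl | hr
    · have hx : x = 0 := (le_zero_iff hg _).1 h
      refine ⟨0, interior_subset h0, ?_⟩
      rw [hx]
      funext i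
      simp
    · refine ⟨r⁻¹ • x, ?_, ?_⟩
      · rw [← hb]
        show gauge U (r⁻¹ • x) ≤ 1
        rw [hg.smul _ (inv_nonneg.2 hr.le), inv_mul_le_iff₀ hr, mul_one]
        exact h
      · funext i
        simp [mul_inv_cancel_left₀ hr.ne']

theorem Fibred.fbr {U : Set (Fin p → ℝ)} (hU : Bd U) (h0 : (0 : Fin p → ℝ) ∈ interior U)
    {K : Set (Fin (q + p) → ℝ)} (h : Fibred U K) : Fbr finSumFinEquiv.symm U K := by
  intro y
  rcases h y with h2 | ⟨r, hr, h2⟩
  · left
    ext x
    simp only [mem_ofPred_eq, mem_empty_iff_false, iff_false, sp_append]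
    exact h2 x
  · right
    refine ⟨r, hr, ?_⟩
    ext x
    simp only [mem_ofPred_eq, sp_append]
    rw [h2, mem_smul_iff hU h0 hr]

/-- a symmetric convex body contains a neighbourhood of the origin -/
theorem zero_int {U : Set (Fin p → ℝ)} (hU : Bd U) (hsym : ∀ x ∈ U, -x ∈ U) :
    (0 : Fin p → ℝ) ∈ interior U := by
  obtain ⟨x, hx⟩ := hU.2.2
  have hneg : -x ∈ interior U := by
    have h1 : IsOpen (-interior U) := isOpen_interior.neg
    refine interior_maximal (t := -interior U) (fun y hy => ?_) h1 (by simpa using hx)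
    have h2 := hsym _ (interior_subset (mem_neg.1 hy))
    rwa [neg_neg] at h2
  have h3 := hU.1.interior hx hneg (show (0 : ℝ) ≤ 1 / 2 by norm_num)
    (show (0 : ℝ) ≤ 1 / 2 by norm_num) (by norm_num)
  have h4 : (1 / 2 : ℝ) • x + (1 / 2 : ℝ) • -x = 0 := by
    rw [smul_neg, add_neg_cancel]
  rwa [h4] at h3

/-- bodies filling a part of a body with homothetic fibres -/
theorem part_fib (hp : 1 ≤ p) {U : Set (Fin p → ℝ)} (hU : Body U) (hsym : ∀ x ∈ U, -x ∈ U)
    {K V : Set (EuclideanSpace ℝ (Fin (q + p)))} (hK : IsConvexBody K) (hV : IsConvexBody V)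
    (hKV : K ⊆ V) {t : ℝ} (ht : 0 < t) (hvol : ENNReal.ofReal t * volume V ≤ volume K)
    (o : EuclideanSpace ℝ (Fin (q + p)))
    (b : Module.Basis (Fin (q + p)) ℝ (EuclideanSpace ℝ (Fin (q + p))))
    (hF : Fibred U (coords o b V)) :
    ENNReal.ofReal (t * Real.exp (-(7 / 20 * (((q + p : ℕ) : ℝ) + 1))) *
      ((volume U).toReal * (volume (polar U)).toReal / simplexVal p) * simplexVal (q + p)) ≤
        volumeProduct K := by
  have hU' := body_iff.1 hU
  have h0 := zero_int hU' hsym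
  have hpol : polar U = polarP U 0 := by
    ext y
    rw [← P0, mem_P0]
    rfl
  refine vP_ge o b fun z hz => ?_
  have hz' : z ∈ interior (coords o b V) := interior_mono (coords_mono o b hKV) hz
  have h1 := fbr_at finSumFinEquiv.symm hp hU' h0 hsym (coords_body o b hV) (hF.fbr hU' h0) hz'
  have h2 := vp_mono (coords_body o b hV) (coords_mono o b hKV) ht.le
    (vol_cond o b hK ht.le hvol) hz
  have h3 := cn_pos p
  have h4 : t * (vp U 0 * (Real.exp (-(7 / 20 * (((q + p : ℕ) : ℝ) + 1))) * cn (q + p))) ≤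
      cn p * vp (coords o b K) z := by
    have h5 := mul_le_mul_of_nonneg_left h1 ht.le
    have h6 := mul_le_mul_of_nonneg_left h2 h3.le
    linarith
  have e : t * Real.exp (-(7 / 20 * (((q + p : ℕ) : ℝ) + 1))) *
      ((volume U).toReal * (volume (polar U)).toReal / simplexVal p) * simplexVal (q + p) =
      t * (vp U 0 * (Real.exp (-(7 / 20 * (((q + p : ℕ) : ℝ) + 1))) * cn (q + p))) / cn p := by
    rw [hpol]
    simp only [simplexVal_eq]
    unfold vp
    field_simp
  rw [e, div_le_iff₀ h3]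
  linarith

theorem part_fib_strict (hp : 1 ≤ p) {U : Set (Fin p → ℝ)} (hU : Body U) (hsym : ∀ x ∈ U, -x ∈ U)
    {K V : Set (EuclideanSpace ℝ (Fin (q + p)))} (hK : IsConvexBody K) (hV : IsConvexBody V)
    (hKV : K ⊆ V) {t : ℝ} (ht : 0 < t) (hvol : ENNReal.ofReal t * volume V ≤ volume K)
    (o : EuclideanSpace ℝ (Fin (q + p)))
    (b : Module.Basis (Fin (q + p)) ℝ (EuclideanSpace ℝ (Fin (q + p))))
    (hF : Fibred U (coords o b V))
    (h : Real.exp (7 / 20 * (((q + p : ℕ) : ℝ) + 1)) * simplexVal p <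
      t * ((volume U).toReal * (volume (polar U)).toReal)) :
    ENNReal.ofReal (simplexVal (q + p)) < volumeProduct K := by
  refine strict_of ?_ (part_fib hp hU hsym hK hV hKV ht hvol o b hF)
  have h3 : 0 < simplexVal p := cn_pos p
  have h4 : Real.exp (-(7 / 20 * (((q + p : ℕ) : ℝ) + 1))) *
      Real.exp (7 / 20 * (((q + p : ℕ) : ℝ) + 1)) = 1 := by
    rw [← Real.exp_add, neg_add_cancel, Real.exp_zero]
  have h5 := mul_lt_mul_of_pos_left h (Real.exp_pos (-(7 / 20 * (((q + p : ℕ) : ℝ) + 1))))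
  rw [← mul_assoc, h4, one_mul] at h5
  rw [← mul_div_assoc, lt_div_iff₀ h3, one_mul]
  linarith

end Vale.Agent.P248.H917
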