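import Vale.Agent.P248.H432.Q.Top
import Vale.Agent.P248.H917.Top

/-!
P248: Q1's inequality for symmetric bodies with homothetic fibres: exchange of the fibre for the
cube.
-/

open MeasureTheory Set
open scoped ENNReal

namespace Vale.Agent.P248.H917

open Vale.Agent.P254.US (IsG ball isG_gauge)
open Vale.Agent.P254.H242 (yp xp sp fb HG HH)
open Vale.Agent.P248.H432 (CB)
open Vale.Agent.P248.H432.Q (Cls SB Unc Mah cls_top main_top pUnc isG_norm vol_cube vol_cross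
  sb_of_symm vp_symm)

variable {n q p : ℕ}

/-- the cube -/
theorem vp_cube (hp : 1 ≤ p) :
    vp (ball (fun x : Fin p → ℝ => ‖x‖)) 0 ≤ 4 ^ p / (p.factorial : ℝ) := by
  unfold vp
  have h1 := ENNReal.toReal_mono ENNReal.ofReal_ne_top (vol_cross hp)
  rw [ENNReal.toReal_ofReal (by positivity)] at h1
  rw [vol_cube hp, ENNReal.toReal_ofReal (by positivity)]
  refine (mul_le_mul_of_nonneg_left h1 (by positivity)).trans (le_of_eq ?_)
  rw [← mul_div_assoc, ← mul_pow]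
  norm_num

/-- **exchange of the fibre for the cube** -/
theorem exch_cube (e : Fin n ≃ Fin q ⊕ Fin p) (hp : 1 ≤ p) {U : Set (Fin p → ℝ)} (hU : Bd U)
    (h0 : (0 : Fin p → ℝ) ∈ interior U) (hsym : ∀ x ∈ U, -x ∈ U) {K : Set (Fin n → ℝ)} (hK : Bd K)
    (hF : Fbr e U K) {z : Fin n → ℝ} (hz : z ∈ interior K) :
    ∃ K' : Set (Fin n → ℝ), Bd K' ∧
      (∀ x ∈ K', ∀ x' : Fin n → ℝ, yp e x' = yp e x →
        (∀ j, ∃ j', |xp e x' j| ≤ |xp e x j'|) → x' ∈ K') ∧
      (∀ f : (Fin q → ℝ) → (Fin q → ℝ), (∀ x ∈ K, sp e (f (yp e x), xp e x) ∈ K) →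
        ∀ x ∈ K', sp e (f (yp e x), xp e x) ∈ K') ∧
      ∃ z' ∈ interior K', vp U 0 * vp K' z' ≤ 4 ^ p / (p.factorial : ℝ) * vp K z := by
  obtain ⟨hg, hb⟩ := isG_gauge hU h0
  obtain ⟨u, hu, hu0⟩ := exists_u0 hp hg
  have hH := hg_HH_fbr hK hg hF hu hu0
  have hKe : fb e (HH e K u) (gauge U) = K := by
    ext x
    show (yp e x, gauge U (xp e x)) ∈ HH e K u ↔ x ∈ K
    rw [mem_HH hg hF hu, Vale.Agent.P254.H242.sp_yx]
  obtain ⟨hW, hW0⟩ := ball_body (isG_norm (p := p))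
  have hgW := gauge_ball (isG_norm (p := p))
  rw [← hKe] at hz
  obtain ⟨hK', z', hz', hle⟩ := exchange e hH hp hU h0 hsym hW hW0 hz
  rw [hgW] at hK' hz' hle
  rw [hKe] at hle
  refine ⟨fb e (HH e K u) (fun x : Fin p → ℝ => ‖x‖), hK', ?_, ?_, z', hz', hle.trans ?_⟩
  · intro x hx x' h1 h2
    show (yp e x', ‖xp e x'‖) ∈ HH e K u
    rw [h1]
    refine hH.down _ _ _ hx (norm_nonneg _) ?_
    rw [pi_norm_le_iff_of_nonneg (norm_nonneg _)]
    intro j
    obtain ⟨j', h3⟩ := h2 j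
    have h4 := norm_le_pi_norm (xp e x) j'
    rw [Real.norm_eq_abs] at h4 ⊢
    exact h3.trans h4
  · intro f hf x hx
    show (yp e (sp e (f (yp e x), xp e x)), ‖xp e (sp e (f (yp e x), xp e x))‖) ∈ HH e K u
    rw [Vale.Agent.P254.H242.yp_sp, Vale.Agent.P254.H242.xp_sp]
    refine ⟨norm_nonneg _, ?_⟩
    have h1 := hf _ hx.2
    rw [Vale.Agent.P254.H242.yp_sp, Vale.Agent.P254.H242.xp_sp] at h1
    exact h1
  · exact mul_le_mul_of_nonneg_right (vp_cube hp) (vp_nonneg _ _)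

/-- the value at every point of a symmetric body satisfying Q1's inequality -/
theorem vp_ge_of_mah {K : Set (Fin n → ℝ)} (hK : Bd K) (hneg : ∀ x ∈ K, -x ∈ K) (hM : Mah K)
    {z : Fin n → ℝ} (hz : z ∈ interior K) : 4 ^ n / (n.factorial : ℝ) ≤ vp K z := by
  have hCB : CB K := ⟨hK.2.1, hK.1, hK.2.2⟩
  have h1 : H432.vp K = volume K * volume (polarP K 0) := vp_symm (sb_of_symm hCB hneg) hneg
  have h2 : H432.vp K ≤ volume K * volume (polarP K z) := iInf₂_le z hz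
  have h3 : ENNReal.ofReal (4 ^ n / (n.factorial : ℝ)) ≤ volume K * volume (polarP K z) :=
    (hM.trans h1.symm.le).trans h2
  have h4 : volume K * volume (polarP K z) ≠ ⊤ :=
    ENNReal.mul_ne_top hK.2.1.measure_lt_top.ne (polarP_isBounded hz).measure_lt_top.ne
  have h5 := (ENNReal.ofReal_le_iff_le_toReal h4).1 h3
  rwa [ENNReal.toReal_mul] at h5

theorem neg_sp (e : Fin n ≃ Fin q ⊕ Fin p) (x : Fin n → ℝ) :
    -x = sp e (-(yp e x), xp e (-x)) := by
  have h : -x = sp e (yp e (-x), xp e (-x)) := (Vale.Agent.P254.H242.sp_yx e (-x)).symm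
  exact h

end Vale.Agent.P248.H917
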