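import Vale.Agent.P248.H917.Q1

/-!
P248: Q1's inequality for symmetric bodies fibred over a plane, or over a base with coordinate
symmetries.
-/

open MeasureTheory Set
open scoped ENNReal

namespace Vale.Agent.P248.H917

open Vale.Agent.P254.US (IsG ball isG_gauge)
open Vale.Agent.P254.H242 (yp xp sp fb HG HH)
open Vale.Agent.P248.H432 (CB)
open Vale.Agent.P248.H432.Q (Cls SB Unc Mah cls_top main_top pUnc isG_norm vol_cube vol_cross
  sb_of_symm vp_symm)

variable {n q p : ℕ}

theorem fibre_neg (e : Fin n ≃ Fin q ⊕ Fin p) {U : Set (Fin p → ℝ)} (hsym : ∀ x ∈ U, -x ∈ U)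
    {K : Set (Fin n → ℝ)} (hF : Fbr e U K) : ∀ x ∈ K, sp e (yp e x, -(xp e x)) ∈ K := by
  intro x hx
  have h1 : xp e x ∈ {x' | sp e (yp e x, x') ∈ K} := by
    show sp e (yp e x, xp e x) ∈ K
    rw [Vale.Agent.P254.H242.sp_yx]
    exact hx
  have h2 : -(xp e x) ∈ {x' | sp e (yp e x, x') ∈ K} := by
    rcases hF (yp e x) with h | ⟨r, -, h⟩
    · rw [h] at h1
      exact absurd h1 (notMem_empty _)
    · rw [h] at h1 ⊢
      show gauge U (-(xp e x)) ≤ r
      rw [gauge_neg hsym]
      exact h1
  exact h2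

theorem neg_base (e : Fin n ≃ Fin q ⊕ Fin p) {U : Set (Fin p → ℝ)} (hsym : ∀ x ∈ U, -x ∈ U)
    {K : Set (Fin n → ℝ)} (hF : Fbr e U K) (hneg : ∀ x ∈ K, -x ∈ K) :
    ∀ x ∈ K, sp e (-(yp e x), xp e x) ∈ K := by
  intro x hx
  have h1 := fibre_neg e hsym hF _ (hneg x hx)
  have h2 : -(xp e (-x)) = xp e x := by
    funext j
    show -(-x _) = x _
    rw [neg_neg]
  rw [h2] at h1
  exact h1

/-- the exchanged body is symmetric -/
theorem symm_of {e : Fin n ≃ Fin q ⊕ Fin p} {K' : Set (Fin n → ℝ)}
    (hA : ∀ x ∈ K', ∀ x' : Fin n → ℝ, yp e x' = yp e x →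
      (∀ j, ∃ j', |xp e x' j| ≤ |xp e x j'|) → x' ∈ K')
    (hB : ∀ x ∈ K', sp e (-(yp e x), xp e x) ∈ K') : ∀ x ∈ K', -x ∈ K' := by
  intro x hx
  refine hA _ (hB x hx) _ ?_ fun j => ⟨j, ?_⟩
  · rw [Vale.Agent.P254.H242.yp_sp]
    rfl
  · rw [Vale.Agent.P254.H242.xp_sp]
    show |-(x _)| ≤ |x _|
    rw [abs_neg]

/-- **Q1's inequality for symmetric bodies fibred over a plane** -/
theorem q1_plane_at (e : Fin n ≃ Fin 2 ⊕ Fin p) (hp : 1 ≤ p) {U : Set (Fin p → ℝ)} (hU : Bd U)
    (h0 : (0 : Fin p → ℝ) ∈ interior U) (hsym : ∀ x ∈ U, -x ∈ U) {K : Set (Fin n → ℝ)} (hK : Bd K)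
    (hF : Fbr e U K) (hneg : ∀ x ∈ K, -x ∈ K) {z : Fin n → ℝ} (hz : z ∈ interior K) :
    vp U 0 * (4 ^ n / (n.factorial : ℝ)) ≤ 4 ^ p / (p.factorial : ℝ) * vp K z := by
  obtain ⟨K', hK', hA, hB, z', hz', hle⟩ := exch_cube e hp hU h0 hsym hK hF hz
  have hneg' := symm_of hA (hB (fun y => -y) (neg_base e hsym hF hneg))
  refine (mul_le_mul_of_nonneg_left (vp_ge_of_mah hK' hneg' ?_ hz') (vp_nonneg U 0)).trans hle
  set a : Fin n := e.symm (Sum.inl 0) with ha
  set b : Fin n := e.symm (Sum.inl 1) with hb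
  have hab : a ≠ b := by
    intro h
    have := e.symm.injective h
    simp at this
  have hinl : ∀ j : Fin 2, e.symm (Sum.inl j) = a ∨ e.symm (Sum.inl j) = b := by
    intro j
    fin_cases j
    · exact Or.inl rfl
    · exact Or.inr rfl
  refine cls_top n a b K' ⟨sb_of_symm ⟨hK'.2.1, hK'.1, hK'.2.2⟩ hneg', hab, hneg', ?_, ?_⟩
  · intro i hia hib x hx
    refine hA x hx _ ?_ fun j => ⟨j, ?_⟩
    · funext j
      show Function.update x i (-x i) (e.symm (Sum.inl j)) = x (e.symm (Sum.inl j))
      rw [Function.update_of_ne]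
      rcases hinl j with h | h
      · rw [h]; exact Ne.symm hia
      · rw [h]; exact Ne.symm hib
    · show |Function.update x i (-x i) (e.symm (Sum.inr j))| ≤ |x (e.symm (Sum.inr j))|
      by_cases h : e.symm (Sum.inr j) = i
      · rw [h, Function.update_self, abs_neg]
      · rw [Function.update_of_ne h]
  · intro σ h1 h2 x hx
    refine hA x hx _ ?_ fun j => ?_
    · funext j
      show x (σ (e.symm (Sum.inl j))) = x (e.symm (Sum.inl j))
      rcases hinl j with h | h
      · rw [h, h1]
      · rw [h, h2]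
    · obtain ⟨s, hs⟩ := e.symm.surjective (σ (e.symm (Sum.inr j)))
      rcases s with i | j'
      · exfalso
        have h3 : σ (e.symm (Sum.inl i)) = e.symm (Sum.inl i) := by
          rcases hinl i with h | h
          · rw [h, h1]
          · rw [h, h2]
        rw [← h3] at hs
        have h4 := e.symm.injective (σ.injective hs)
        simp at h4
      · refine ⟨j', ?_⟩
        show |x (σ (e.symm (Sum.inr j)))| ≤ |x (e.symm (Sum.inr j'))|
        rw [hs]

/-- **Q1's inequality for bodies fibred over a base with coordinate symmetries** -/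
theorem q1_base_at (e : Fin n ≃ Fin q ⊕ Fin p) (hp : 1 ≤ p) {U : Set (Fin p → ℝ)} (hU : Bd U)
    (h0 : (0 : Fin p → ℝ) ∈ interior U) (hsym : ∀ x ∈ U, -x ∈ U) {K : Set (Fin n → ℝ)} (hK : Bd K)
    (hF : Fbr e U K)
    (hbase : ∀ i, ∀ x ∈ K, sp e (Function.update (yp e x) i (-(yp e x i)), xp e x) ∈ K)
    {z : Fin n → ℝ} (hz : z ∈ interior K) :
    vp U 0 * (4 ^ n / (n.factorial : ℝ)) ≤ 4 ^ p / (p.factorial : ℝ) * vp K z := by
  obtain ⟨K', hK', hA, hB, z', hz', hle⟩ := exch_cube e hp hU h0 hsym hK hF hz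
  have hunc : Unc K' := by
    intro i x hx
    obtain ⟨s, rfl⟩ := e.symm.surjective i
    rcases s with j | j
    · have h1 := hB (fun y => Function.update y j (-(y j))) (hbase j) x hx
      refine hA _ h1 _ ?_ fun k => ⟨k, ?_⟩
      · rw [Vale.Agent.P254.H242.yp_sp]
        funext k
        show Function.update x (e.symm (Sum.inl j)) (-x (e.symm (Sum.inl j)))
          (e.symm (Sum.inl k)) = Function.update (yp e x) j (-(yp e x j)) k
        by_cases h : k = j
        · subst h
          rw [Function.update_self, Function.update_self]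
          rfl
        · rw [Function.update_of_ne h, Function.update_of_ne]
          · rfl
          · intro h2
            exact h (Sum.inl.inj (e.symm.injective h2))
      · rw [Vale.Agent.P254.H242.xp_sp]
        show |Function.update x (e.symm (Sum.inl j)) (-x (e.symm (Sum.inl j)))
          (e.symm (Sum.inr k))| ≤ |x (e.symm (Sum.inr k))|
        rw [Function.update_of_ne]
        intro h2
        have := e.symm.injective h2
        simp at this
    · refine hA x hx _ ?_ fun k => ⟨k, ?_⟩
      · funext k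
        show Function.update x (e.symm (Sum.inr j)) (-x (e.symm (Sum.inr j)))
          (e.symm (Sum.inl k)) = x (e.symm (Sum.inl k))
        rw [Function.update_of_ne]
        intro h2
        have := e.symm.injective h2
        simp at this
      · show |Function.update x (e.symm (Sum.inr j)) (-x (e.symm (Sum.inr j)))
          (e.symm (Sum.inr k))| ≤ |x (e.symm (Sum.inr k))|
        by_cases h : e.symm (Sum.inr k) = e.symm (Sum.inr j)
        · rw [h, Function.update_self, abs_neg]
        · rw [Function.update_of_ne h]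
  have hneg' : ∀ x ∈ K', -x ∈ K' := by
    intro x hx
    have key : ∀ s : Finset (Fin n), (fun i => if i ∈ s then -x i else x i) ∈ K' := by
      intro s
      induction s using Finset.induction_on with
      | empty => simpa using hx
      | insert i s hi ih =>
        have h1 := hunc i _ ih
        convert h1 using 1
        funext k
        by_cases hk : k = i
        · subst hk
          rw [Function.update_self]
          simp [hi]
        · rw [Function.update_of_ne hk]
          simp [hk]
    have h1 := key Finset.univ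
    convert h1 using 1
    funext k
    simp
  refine (mul_le_mul_of_nonneg_left (vp_ge_of_mah hK' hneg' ?_ hz') (vp_nonneg U 0)).trans hle
  exact pUnc main_top n K' (sb_of_symm ⟨hK'.2.1, hK'.1, hK'.2.2⟩ hneg') hunc

/-- bases of dimension at most two -/
theorem q1_low_at (e : Fin n ≃ Fin q ⊕ Fin p) (hq : q ≤ 2) (hp : 1 ≤ p) {U : Set (Fin p → ℝ)}
    (hU : Bd U) (h0 : (0 : Fin p → ℝ) ∈ interior U) (hsym : ∀ x ∈ U, -x ∈ U)
    {K : Set (Fin n → ℝ)} (hK : Bd K)
    (hF : Fbr e U K) (hneg : ∀ x ∈ K, -x ∈ K) {z : Fin n → ℝ} (hz : z ∈ interior K) :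
    vp U 0 * (4 ^ n / (n.factorial : ℝ)) ≤ 4 ^ p / (p.factorial : ℝ) * vp K z := by
  rcases Nat.lt_or_ge q 2 with h | h
  · refine q1_base_at e hp hU h0 hsym hK hF (fun i x hx => ?_) hz
    have h1 := neg_base e hsym hF hneg x hx
    have h2 : Function.update (yp e x) i (-(yp e x i)) = -(yp e x) := by
      funext k
      have hk : k = i := Fin.ext (by have := k.2; have := i.2; omega)
      subst hk
      rw [Function.update_self]
      rfl
    rw [h2]
    exact h1
  · obtain rfl : q = 2 := le_antisymm hq h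
    exact q1_plane_at e hp hU h0 hsym hK hF hneg hz

end Vale.Agent.P248.H917
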