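import Vale.Agent.P248.H917.Pol
import Vale.Agent.P254.H242.Sharp

/-!
P248: near-sharp inequality at a point, convexity of the volume of the polar body in the centre,
reduction to symmetric centres.
-/

open MeasureTheory Set Topology Matrix

namespace Vale.Agent.P248.H917

open Vale.Agent.P248.NS (Z CC Pos dual)
open Vale.Agent.P254.R304 (cone)
open Vale.Agent.P254.US (IsG ball isG_gauge)
open Vale.Agent.P254.H242 (yp xp sp fb HG JJ rho)

variable {n q p : ℕ}

theorem polarP_eq (K : Set (Fin n → ℝ)) (z : Fin n → ℝ) : NS.polarP K z = polarP K z := by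
  ext w
  refine forall₂_congr fun x _ => ?_
  have : w ⬝ᵥ (x - z) = ∑ i, (x i - z i) * w i := by
    unfold dotProduct
    exact Finset.sum_congr rfl fun i _ => mul_comm _ _
  rw [this]

theorem vol_polar {K : Set (Fin n → ℝ)} (hK : Bd K) {z : Fin n → ℝ} (hz : z ∈ interior K) :
    (n.factorial : ℝ) * (volume (polarP K z)).toReal = Z (dual (cone K)) (Fin.cons 1 z) := by
  rw [← polarP_eq]
  exact (NS.T9.stmtCone n K hK z hz).2.2.2.2.symm

/-- the near-sharp inequality at a point -/
theorem near_sharp_at {K : Set (Fin n → ℝ)} (hK : Bd K) {z : Fin n → ℝ} (hz : z ∈ interior K) :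
    Real.exp (-(7 / 20 * ((n : ℝ) + 1))) * (((n : ℝ) + 1) ^ (n + 1) / (n.factorial : ℝ) ^ 2) ≤
      vp K z := by
  have h := NS.T10.body_of (NS.Asm541.stmtMain_of NS.T2.stmtLoss) NS.T9.stmtCone
    (Vale.Agent.P254.H242.niceDDL (n + 1)) hK hz
  rw [polarP_eq] at h
  have e : (2 * (7 / 40) * ((n : ℝ) + 1) : ℝ) = 7 / 20 * ((n : ℝ) + 1) := by ring
  rw [e] at h
  exact h

theorem exp_mid (a b : ℝ) : Real.exp (-(1 / 2 * (a + b))) ≤ (Real.exp (-a) + Real.exp (-b)) / 2 := by
  have h1 : Real.exp (-(1 / 2 * (a + b))) = Real.exp (-(a / 2)) * Real.exp (-(b / 2)) := by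
    rw [← Real.exp_add]
    congr 1
    ring
  have h2 : Real.exp (-a) = Real.exp (-(a / 2)) ^ 2 := by
    rw [← Real.exp_nat_mul]
    congr 1
    push_cast
    ring
  have h3 : Real.exp (-b) = Real.exp (-(b / 2)) ^ 2 := by
    rw [← Real.exp_nat_mul]
    congr 1
    push_cast
    ring
  rw [h1, h2, h3]
  nlinarith [sq_nonneg (Real.exp (-(a / 2)) - Real.exp (-(b / 2)))]

theorem Z_mid {N : ℕ} {D : Set (Fin N → ℝ)} (hD : CC D) {x x' m : Fin N → ℝ} (hx : Pos D x)
    (hx' : Pos D x') (hm : Pos D m) (he : ∀ w : Fin N → ℝ, m ⬝ᵥ w = 1 / 2 * (x ⬝ᵥ w + x' ⬝ᵥ w)) :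
    Z D m ≤ (Z D x + Z D x') / 2 := by
  unfold Z
  have i1 := NS.T2a.integrableOn_exp hD hx
  have i2 := NS.T2a.integrableOn_exp hD hx'
  have i3 := NS.T2a.integrableOn_exp hD hm
  rw [← integral_add i1 i2, ← integral_div]
  refine integral_mono i3 ((i1.add i2).div_const 2) fun w => ?_
  show Real.exp (-(m ⬝ᵥ w)) ≤ (Real.exp (-(x ⬝ᵥ w)) + Real.exp (-(x' ⬝ᵥ w))) / 2
  rw [he]
  exact exp_mid _ _

/-- convexity of the volume of the polar body -/
theorem vol_polar_mid {K : Set (Fin n → ℝ)} (hK : Bd K) {z z' m : Fin n → ℝ}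
    (hz : z ∈ interior K) (hz' : z' ∈ interior K) (hm : m ∈ interior K)
    (he : ∀ i, m i = 1 / 2 * (z i + z' i)) :
    (volume (polarP K m)).toReal ≤
      ((volume (polarP K z)).toReal + (volume (polarP K z')).toReal) / 2 := by
  have hD : CC (dual (cone K)) := (NS.T1.stmtDual _ _ (NS.T9.cc_cone hK)).1
  have h1 := Z_mid hD (NS.T9.pos_dual hz) (NS.T9.pos_dual hz') (NS.T9.pos_dual hm) (fun w => by
    rw [NS.T9.dot_cons, NS.T9.dot_cons, NS.T9.dot_cons]
    have : m ⬝ᵥ Fin.tail w = 1 / 2 * (z ⬝ᵥ Fin.tail w + z' ⬝ᵥ Fin.tail w) := by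
      unfold dotProduct
      rw [← Finset.sum_add_distrib, Finset.mul_sum]
      refine Finset.sum_congr rfl fun i _ => ?_
      rw [he]
      ring
    rw [this]
    ring)
  rw [← vol_polar hK hz, ← vol_polar hK hz', ← vol_polar hK hm] at h1
  have hf : (0 : ℝ) < (n.factorial : ℝ) := by positivity
  have h2 : (n.factorial : ℝ) * (volume (polarP K m)).toReal ≤ (n.factorial : ℝ) *
      (((volume (polarP K z)).toReal + (volume (polarP K z')).toReal) / 2) := by
    linarith
  exact le_of_mul_le_mul_left h2 hf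

/-- sign flips -/
def flip (s z : Fin n → ℝ) : Fin n → ℝ := fun i => s i * z i

theorem flip_eq (s : Fin n → ℝ) : flip s = diagMap s := by
  funext z i
  rw [diagMap_apply]
  rfl

section
variable {s : Fin n → ℝ} (hs : ∀ i, s i = 1 ∨ s i = -1)

include hs

theorem s_sq (i : Fin n) : s i * s i = 1 := by
  rcases hs i with h | h <;> rw [h] <;> norm_num

theorem flip_flip (z : Fin n → ℝ) : flip s (flip s z) = z := by
  funext i
  show s i * (s i * z i) = z i
  rw [← mul_assoc, s_sq hs, one_mul]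

theorem vol_flip (A : Set (Fin n → ℝ)) : volume (flip s ⁻¹' A) = volume A := by
  have hdet : |LinearMap.det (diagMap s)| = 1 := by
    rw [diagMap_det, Finset.abs_prod]
    refine Finset.prod_eq_one fun i _ => ?_
    rcases hs i with h | h <;> rw [h] <;> norm_num
  have hdet0 : LinearMap.det (diagMap s) ≠ 0 := by
    intro h
    rw [h] at hdet
    norm_num at hdet
  rw [flip_eq, Measure.addHaar_preimage_linearMap volume hdet0, abs_inv, hdet]
  simp

theorem flip_int {K : Set (Fin n → ℝ)} (hinv : ∀ x ∈ K, flip s x ∈ K) {z : Fin n → ℝ}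
    (hz : z ∈ interior K) : flip s z ∈ interior K := by
  have hc : Continuous (flip s) := by
    unfold flip
    fun_prop
  have h1 : flip s ⁻¹' interior K ⊆ K := fun x hx => by
    have h2 := hinv _ (interior_subset hx)
    rwa [flip_flip hs] at h2
  refine interior_maximal h1 (isOpen_interior.preimage hc) ?_
  show flip s (flip s z) ∈ interior K
  rwa [flip_flip hs]

theorem vol_polar_flip {K : Set (Fin n → ℝ)} (hinv : ∀ x ∈ K, flip s x ∈ K) (z : Fin n → ℝ) :
    volume (polarP K (flip s z)) = volume (polarP K z) := by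
  have e : polarP K (flip s z) = flip s ⁻¹' polarP K z := by
    ext w
    have key : ∀ x : Fin n → ℝ, ∑ i, (flip s x i - flip s z i) * w i =
        ∑ i, (x i - z i) * flip s w i := by
      intro x
      refine Finset.sum_congr rfl fun i _ => ?_
      unfold flip
      ring
    constructor
    · intro h x hx
      rw [← key]
      exact h _ (hinv x hx)
    · intro h x hx
      have h1 := h _ (hinv x hx)
      rw [← key, flip_flip hs] at h1
      exact h1
  rw [e, vol_flip hs]

/-- **reduction to symmetric centres** -/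
theorem san {K : Set (Fin n → ℝ)} (hK : Bd K) (hinv : ∀ x ∈ K, flip s x ∈ K) {z : Fin n → ℝ}
    (hz : z ∈ interior K) : (fun i => 1 / 2 * (z i + flip s z i)) ∈ interior K ∧
      vp K (fun i => 1 / 2 * (z i + flip s z i)) ≤ vp K z := by
  have hz' := flip_int hs hinv hz
  have hm : (fun i => 1 / 2 * (z i + flip s z i)) ∈ interior K := by
    have h1 := hK.1.interior hz hz' (show (0 : ℝ) ≤ 1 / 2 by norm_num)
      (show (0 : ℝ) ≤ 1 / 2 by norm_num) (by norm_num)
    convert h1 using 1
    funext i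
    show 1 / 2 * (z i + flip s z i) = 1 / 2 * z i + 1 / 2 * flip s z i
    ring
  refine ⟨hm, ?_⟩
  have h1 := vol_polar_mid hK hz hz' hm fun i => rfl
  rw [vol_polar_flip hs hinv] at h1
  unfold vp
  refine mul_le_mul_of_nonneg_left ?_ ENNReal.toReal_nonneg
  linarith

end

/-- reduction to a centre whose second component vanishes -/
theorem san_block (e : Fin n ≃ Fin q ⊕ Fin p) {K : Set (Fin n → ℝ)} (hK : Bd K)
    (hinv : ∀ x ∈ K, sp e (yp e x, -xp e x) ∈ K) {z : Fin n → ℝ} (hz : z ∈ interior K) :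
    ∃ z' ∈ interior K, xp e z' = 0 ∧ vp K z' ≤ vp K z := by
  set s : Fin n → ℝ := fun i => Sum.elim (fun _ => (1 : ℝ)) (fun _ => -1) (e i) with hs
  have h1 : ∀ i, s i = 1 ∨ s i = -1 := by
    intro i
    simp only [hs]
    rcases e i with j | j
    · left; rfl
    · right; rfl
  have h2 : ∀ x : Fin n → ℝ, flip s x = sp e (yp e x, -xp e x) := by
    intro x
    refine Vale.Agent.P254.H242.ext_yx e ?_ ?_
    · rw [Vale.Agent.P254.H242.yp_sp]
      funext j
      show s (e.symm (Sum.inl j)) * x (e.symm (Sum.inl j)) = x (e.symm (Sum.inl j))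
      simp only [hs, Equiv.apply_symm_apply, Sum.elim_inl, one_mul]
    · rw [Vale.Agent.P254.H242.xp_sp]
      funext j
      show s (e.symm (Sum.inr j)) * x (e.symm (Sum.inr j)) = -x (e.symm (Sum.inr j))
      simp only [hs, Equiv.apply_symm_apply, Sum.elim_inr, neg_mul, one_mul]
  obtain ⟨h3, h4⟩ := san h1 hK (fun x hx => by rw [h2]; exact hinv x hx) hz
  refine ⟨_, h3, ?_, h4⟩
  funext j
  show 1 / 2 * (z (e.symm (Sum.inr j)) + s (e.symm (Sum.inr j)) * z (e.symm (Sum.inr j))) = 0
  simp only [hs, Equiv.apply_symm_apply, Sum.elim_inr]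
  ring

end Vale.Agent.P248.H917
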